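import Vale.Agent.P268.T.NBr
import Vale.Agent.P268.T.H327.HP

/-!
# P268, topological half, block B6: the statements used by the slide

Wall coordinate `x 0`, wall `x 0 = 0`; activity windows: the letters of `k` over
`-3/4 ≤ x 0 ≤ -1/2`, those of the other strands over `1/4 ≤ x 0 ≤ 1/2`.
-/

namespace Vale.Agent.P268.T

open Set Filter Topology Metric

/-- `f` does not depend on the coordinate `x 0` between `a` and `b`. -/
def ConstOn {d : ℕ} {V : Type*} (a b : ℝ) (f : Pk d → V) : Prop :=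
  ∀ x : Pk d, ‖x‖ ≤ 1 → a ≤ x 0 → x 0 ≤ b → ∀ y : Pk d, ‖y‖ ≤ 1 → a ≤ y 0 → y 0 ≤ b →
    (∀ l, l ≠ 0 → x l = y l) → f x = f y

/-- **Homotopy of hairpin data.** -/
def BlockHPHom : Prop :=
  ∀ (d : ℕ) (κ : Type) [Fintype κ] (D : ℝ → HData κ (Pk d) (Vk d))
    (ε R M K ε' R' M' K' : ℝ), HPFam (Icc (0 : ℝ) 1) 0 (frk d).h D →
    HAdm 0 ε R M K (D 0) → HAdm 0 ε' R' M' K' (D 1) →
    VEq (HP 0 (frk d).h ε R M K (D 0) : Ek d → ℂ) (HP 0 (frk d).h ε' R' M' K' (D 1) : Ek d → ℂ)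

/-- **Existence of admissible parameters for hairpin data.** -/
def BlockHPAdm : Prop :=
  ∀ (d : ℕ) (κ : Type) [Fintype κ] (D : HData κ (Pk d) (Vk d)), HPData 0 (frk d).h D →
    ∃ ε R M K, HAdm 0 ε R M K D

/-- The hairpin data which belong to braid data `b`, `ν` in which the strand `k` runs parallel to
the strand `j` (at the distance `2 r` in the direction `a₀`, the position of `j` being `v`) near
the wall. -/
noncomputable def splitData {d : ℕ} {A : Type} (b ν : A → Pk d → Vk d) (k : A) (v a₀ : Vk d)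
    (r : ℝ) : HData {i : A // i ≠ k} (Pk d) (Vk d) where
  b i := b i.1
  n i := ν i.1
  bk := b k
  nk := ν k
  bt _ := v + r • a₀
  nt _ := (frk d).h
  m _ := v + (3 / 2 * r) • a₀
  ph _ := a₀
  nw _ := (frk d).h
  r0 := r / 2
  c := 0

/-- The hypotheses of the splitting. -/
structure SplitHyp {d : ℕ} {A : Type} (b ν : A → Pk d → Vk d) (a : Pk d → Vk d) (j k : A)
    (v a₀ : Vk d) (r : ℝ) : Prop where
  jk : j ≠ k
  hr : 0 < r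
  dat : BData (frk d).h b ν
  ca : ContinuousOn a (closedBall 0 1)
  na : ∀ x, ‖x‖ ≤ 1 → ‖a x‖ = 1 ∧ inner ℝ (a x) (ν j x) = 0
  ah : ∀ x, ‖x‖ = 1 → inner ℝ (a x) (frk d).h = 0
  /-- `k` is parallel to `j` to the right of `x 0 = -1/4` -/
  par : ∀ x, ‖x‖ ≤ 1 → -1 / 4 ≤ x 0 → b k x = b j x + (2 * r) • a x ∧ ν k x = ν j x
  /-- `j` and the direction `a` are constant to the left of `x 0 = 1/4` -/
  left : ∀ x, ‖x‖ ≤ 1 → x 0 ≤ 1 / 4 → b j x = v ∧ ν j x = (frk d).h ∧ a x = a₀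
  /-- the other sheets are far from the column -/
  far : ∀ i, i ≠ j → i ≠ k → ∀ x, ‖x‖ ≤ 1 → ∀ s ∈ Icc (0 : ℝ) (2 * r),
    4 * r ≤ ‖b i x - (b j x + s • a x)‖
  /-- `k` is far from `j` -/
  fark : ∀ x, ‖x‖ ≤ 1 → 2 * r ≤ ‖b k x - b j x‖
  /-- activity windows -/
  win : ∀ i, ConstOn (-1 / 4) (1 / 4) (b i) ∧ ConstOn (-1 / 4) (1 / 4) (ν i) ∧
    ConstOn (1 / 2) 1 (b i) ∧ ConstOn (1 / 2) 1 (ν i) ∧
    ConstOn (-1) (-3 / 4) (b i) ∧ ConstOn (-1) (-3 / 4) (ν i)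
  wina : ConstOn (1 / 2) 1 a
  /-- all data are constant near the face `x 0 = 1` -/
  cst : ∀ i, ∀ x y : Pk d, ‖x‖ ≤ 1 → ‖y‖ ≤ 1 → 3 / 4 ≤ x 0 → 3 / 4 ≤ y 0 →
    b i x = b i y ∧ ν i x = ν i y

/-- **Splitting (block B6b)**: over the sheet `j`, which is parallel to `k` to the right of the
wall, the sheet `k` is replaced by the hairpin `k`, `t`, where `t` is parallel to `j` to the left
of the wall. -/
def BlockSplit : Prop :=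
  ∀ (d : ℕ) (A : Type) [Fintype A] [DecidableEq A] (b ν : A → Pk d → Vk d) (a : Pk d → Vk d)
    (j k : A) (v a₀ : Vk d) (r : ℝ), SplitHyp b ν a j k v a₀ r →
    ∀ ε R M ε' R' M' K' : ℝ, Adm ε R M b → HAdm 0 ε' R' M' K' (splitData b ν k v a₀ r) →
    VEq (NN (frk d).h ε R M b ν : Ek d → ℂ)
      (HP 0 (frk d).h ε' R' M' K' (splitData b ν k v a₀ r) : Ek d → ℂ)

/-- **Removal of a letter next to the tip (R-I)**: `D'` is `D` with the letter (`k` circles the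
constant strand `t`, along the unit vectors `G`, with the twist `rfl' G h`) over
`-3/8 ≤ x 0 ≤ -1/8`. -/
def BlockRI : Prop :=
  ∀ (d : ℕ) (κ : Type) [Fintype κ] (D D' : HData κ (Pk d) (Vk d)) (G : Pk d → Vk d)
    (T₀ e' : Vk d), HPData 0 (frk d).h D → HPData 0 (frk d).h D' →
    D'.b = D.b → D'.n = D.n → D.c = 0 → D'.c = 0 → D'.r0 = D.r0 →
    (∀ x, ‖x‖ ≤ 1 → x 0 ≤ 0 → D.bt x = T₀ ∧ D.nt x = (frk d).h ∧ D'.bt x = T₀ ∧
      D'.nt x = (frk d).h) →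
    (∀ x, ‖x‖ ≤ 1 → x 0 = 0 → D.m x = T₀ + D.r0 • e' ∧ D.ph x = e' ∧ D.nw x = (frk d).h ∧
      D'.m x = T₀ + D.r0 • e' ∧ D'.ph x = e' ∧ D'.nw x = (frk d).h) →
    (∀ x, ‖x‖ ≤ 1 → x 0 ≤ -3 / 8 → D'.bk x = D.bk x ∧ D'.nk x = D.nk x) →
    (∀ x, ‖x‖ ≤ 1 → -3 / 8 ≤ x 0 → x 0 ≤ 0 →
      D.bk x = T₀ + (2 * D.r0) • e' ∧ D.nk x = (frk d).h ∧
      D'.bk x = T₀ + (2 * D.r0) • G x ∧ D'.nk x = rfl' (G x) (frk d).h) →
    ContinuousOn G (closedBall 0 1) → (∀ x, ‖x‖ ≤ 1 → ‖G x‖ = 1) →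
    (∀ x, ‖x‖ = 1 → inner ℝ (G x) (frk d).h = 0) →
    (∀ x, ‖x‖ ≤ 1 → (x 0 ≤ -3 / 8 ∨ -1 / 8 ≤ x 0) → G x = e') →
    (∀ i x, ‖x‖ ≤ 1 → -3 / 8 ≤ x 0 → x 0 ≤ 0 → 2 * D.r0 < ‖D.b i x - T₀‖) →
    ∀ ε R M K ε' R' M' K' : ℝ, HAdm 0 ε R M K D → HAdm 0 ε' R' M' K' D' →
    VEq (HP 0 (frk d).h ε R M K D : Ek d → ℂ) (HP 0 (frk d).h ε' R' M' K' D' : Ek d → ℂ)

end Vale.Agent.P268.T
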