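import Vale.Agent.P268.T.H277.MoveFam
import Vale.Agent.P268.T.H732.RI
import Vale.Agent.P268.T.H545.HPVeq

/-!
# P268, topological half, block B6c: the chain of equivalences of the slide
-/

set_option linter.unusedSectionVars false

namespace Vale.Agent.P268.T.H277

open Set Filter Topology Metric
open Vale.Agent.P268.T.H83 Vale.Agent.P268.T.H732

variable {d : ℕ} {A : Type} [DecidableEq A] [Fintype A]
  {c ν : A → Pk d → Vk d} {v : A → Vk d} {z j k : A} {e2 : Vk d} {L r : ℝ}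

theorem hd2_data (h : SD c ν v z j k) (g : SG c v z j k e2 L r) :
    HPData 0 (frk d).h (hd2 c ν v z j k e2 L r) := by
  obtain ⟨D, hD, h0, -⟩ := move_fam' h g
  rw [← h0]
  exact hD.at (left_mem_Icc.mpr zero_le_one)

theorem hd3_data (h : SD c ν v z j k) (g : SG c v z j k e2 L r) :
    HPData 0 (frk d).h (hd3 c ν v z j k e2 L r) := by
  obtain ⟨D, hD, -, h1⟩ := move_fam' h g
  rw [← h1]
  exact hD.at (right_mem_Icc.mpr zero_le_one)

/-- **The move of the tongue.** -/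
theorem move_veq (hph : BlockHPHom) (h : SD c ν v z j k) (g : SG c v z j k e2 L r)
    {ε R M K ε' R' M' K' : ℝ} (hA : HAdm 0 ε R M K (hd2 c ν v z j k e2 L r))
    (hA' : HAdm 0 ε' R' M' K' (hd3 c ν v z j k e2 L r)) :
    VEq (HP 0 (frk d).h ε R M K (hd2 c ν v z j k e2 L r) : Ek d → ℂ)
      (HP 0 (frk d).h ε' R' M' K' (hd3 c ν v z j k e2 L r) : Ek d → ℂ) := by
  obtain ⟨D, hD, h0, h1⟩ := move_fam' h g
  rw [← h0] at hA ⊢
  rw [← h1] at hA' ⊢
  exact hph d _ D ε R M K ε' R' M' K' hD hA hA'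

/-- The chain, from its pieces. -/
theorem chain_of (hph : BlockHPHom) (hsp : BlockSplit) {a : Pk d → Vk d}
    (h : SD c ν v z j k) (g : SG c v z j k e2 L r)
    (hz : SplitHyp (c1 c v z j k e2 L r) ν (fun _ => v k - v j) z k
      (v k + L • e2 - (2 * r) • (v k - v j)) (v k - v j) r)
    (az : Agree 0 (splitData (c1 c v z j k e2 L r) ν k (v k + L • e2 - (2 * r) • (v k - v j))
      (v k - v j) r) (hd0 c ν v z j k e2 L r))
    (hj : SplitHyp (c4 c v z j k a e2 L r) (n4 c ν v j k) a j k (v j) (v k - v j) r)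
    (aj : Agree 0 (splitData (c4 c v z j k a e2 L r) (n4 c ν v j k) k (v j) (v k - v j) r)
      (hd3 c ν v z j k e2 L r))
    (prep : ∀ {ε R M K ε' R' M' K' : ℝ}, HAdm 0 ε R M K (hd0 c ν v z j k e2 L r) →
      HAdm 0 ε' R' M' K' (hd1 c ν v z j k e2 L r) →
      VEq (HP 0 (frk d).h ε R M K (hd0 c ν v z j k e2 L r) : Ek d → ℂ)
        (HP 0 (frk d).h ε' R' M' K' (hd1 c ν v z j k e2 L r) : Ek d → ℂ))
    (ri : ∀ {ε R M K ε' R' M' K' : ℝ}, HAdm 0 ε R M K (hd1 c ν v z j k e2 L r) →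
      HAdm 0 ε' R' M' K' (hd2 c ν v z j k e2 L r) →
      VEq (HP 0 (frk d).h ε R M K (hd1 c ν v z j k e2 L r) : Ek d → ℂ)
        (HP 0 (frk d).h ε' R' M' K' (hd2 c ν v z j k e2 L r) : Ek d → ℂ))
    (d0 : HPData 0 (frk d).h (hd0 c ν v z j k e2 L r))
    (d1 : HPData 0 (frk d).h (hd1 c ν v z j k e2 L r))
    {ε R M ε' R' M' : ℝ} (hA : Adm ε R M (c1 c v z j k e2 L r))
    (hA' : Adm ε' R' M' (c4 c v z j k a e2 L r)) :
    VEq (NN (frk d).h ε R M (c1 c v z j k e2 L r) ν : Ek d → ℂ)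
      (NN (frk d).h ε' R' M' (c4 c v z j k a e2 L r) (n4 c ν v j k) : Ek d → ℂ) := by
  have hc : |(0 : ℝ)| ≤ 1 := by norm_num
  obtain ⟨ε₀, R₀, M₀, K₀, a0⟩ := blockHPAdm d _ _ d0
  obtain ⟨ε₁, R₁, M₁, K₁, a1⟩ := blockHPAdm d _ _ d1
  obtain ⟨ε₂, R₂, M₂, K₂, a2⟩ := blockHPAdm d _ _ (hd2_data h g)
  obtain ⟨ε₃, R₃, M₃, K₃, a3⟩ := blockHPAdm d _ _ (hd3_data h g)
  -- admissible parameters for the split data
  have az' : Agree 0 (hd0 c ν v z j k e2 L r) (splitData (c1 c v z j k e2 L r) ν k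
      (v k + L • e2 - (2 * r) • (v k - v j)) (v k - v j) r) :=
    ⟨az.b.symm, az.n.symm, az.c.symm, az.r0.symm,
      fun x hx hx0 => (az.bk x hx (az.c ▸ hx0)).symm, fun x hx hx0 => (az.nk x hx (az.c ▸ hx0)).symm,
      fun x hx hx0 => (az.bt x hx (az.c ▸ hx0)).symm, fun x hx hx0 => (az.nt x hx (az.c ▸ hx0)).symm,
      fun x hx hx0 => (az.m x hx (az.c ▸ hx0)).symm, fun x hx hx0 => (az.ph x hx (az.c ▸ hx0)).symm,
      fun x hx hx0 => (az.nw x hx (az.c ▸ hx0)).symm⟩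
  have aj' : Agree 0 (hd3 c ν v z j k e2 L r) (splitData (c4 c v z j k a e2 L r)
      (n4 c ν v j k) k (v j) (v k - v j) r) :=
    ⟨aj.b.symm, aj.n.symm, aj.c.symm, aj.r0.symm,
      fun x hx hx0 => (aj.bk x hx (aj.c ▸ hx0)).symm, fun x hx hx0 => (aj.nk x hx (aj.c ▸ hx0)).symm,
      fun x hx hx0 => (aj.bt x hx (aj.c ▸ hx0)).symm, fun x hx hx0 => (aj.nt x hx (aj.c ▸ hx0)).symm,
      fun x hx hx0 => (aj.m x hx (aj.c ▸ hx0)).symm, fun x hx hx0 => (aj.ph x hx (aj.c ▸ hx0)).symm,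
      fun x hx hx0 => (aj.nw x hx (aj.c ▸ hx0)).symm⟩
  have a0' := HAdm_congr az' hc a0
  have a3' := HAdm_congr aj' hc a3
  have v1 := hsp d A _ ν _ z k _ _ r hz ε R M ε₀ R₀ M₀ K₀ hA a0'
  rw [HP_congr az' hc] at v1
  have v2 := prep a0 a1
  have v3 := ri a1 a2
  have v4 := move_veq hph h g a2 a3
  have v5 := hsp d A _ (n4 c ν v j k) a j k _ _ r hj ε' R' M' ε₃ R₃ M₃ K₃ hA' a3'
  rw [HP_congr aj' hc] at v5
  exact v1.trans (v2.trans (v3.trans (v4.trans v5.symm)))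

end Vale.Agent.P268.T.H277
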