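import Vale.Agent.P268.T.W196.One

/-!
# P268, topological half, block B6c: the move of the tongue

`exists_move`: the strand `k` (with the letter `G` next to the tip) and the parallel strand `t`
are moved from a far away place to a place next to the strand `j`; afterwards `k` has no letter.
-/

namespace Vale.Agent.P268.T.H277

open Set Filter Topology Metric
open Vale.Agent.P268.T.W196

/-- Clamp to `[0,1]`. -/
noncomputable def cl (a : ℝ) : ℝ := max 0 (min 1 a)

theorem cl_nonneg (a : ℝ) : 0 ≤ cl a := le_max_left _ _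

theorem cl_le_one (a : ℝ) : cl a ≤ 1 := max_le zero_le_one (min_le_left _ _)

theorem cl_mem (a : ℝ) : cl a ∈ Icc (0 : ℝ) 1 := ⟨cl_nonneg a, cl_le_one a⟩

theorem cl_of_nonpos {a : ℝ} (h : a ≤ 0) : cl a = 0 := by
  unfold cl
  rw [min_eq_right (h.trans zero_le_one), max_eq_left h]

theorem cl_of_one_le {a : ℝ} (h : 1 ≤ a) : cl a = 1 := by
  unfold cl
  rw [min_eq_left h, max_eq_right zero_le_one]

theorem cl_of_mem {a : ℝ} (h0 : 0 ≤ a) (h1 : a ≤ 1) : cl a = a := by
  unfold cl
  rw [min_eq_right h1, max_eq_right h0]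

@[fun_prop]
theorem continuous_cl : Continuous cl := by
  unfold cl
  fun_prop

/-- `s z = 0` for `z ≤ -1/2`, `= 1` for `z ≥ -3/8`. -/
noncomputable def sc (z : ℝ) : ℝ := cl (8 * (z + 1 / 2))

@[fun_prop]
theorem continuous_sc : Continuous sc := by
  unfold sc
  fun_prop

theorem sc_mem (z : ℝ) : sc z ∈ Icc (0 : ℝ) 1 := cl_mem _

theorem sc_of_le {z : ℝ} (h : z ≤ -1 / 2) : sc z = 0 := cl_of_nonpos (by linarith)

theorem sc_of_ge {z : ℝ} (h : -3 / 8 ≤ z) : sc z = 1 := cl_of_one_le (by linarith)

/-- The window: `φ₀ z ≤ -3/4` for `z ≤ -3/8`, `≥ -1/2` for `z ≥ -1/4`. -/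
noncomputable def ph0 (z : ℝ) : ℝ := max (-1) (2 * z)

@[fun_prop]
theorem continuous_ph0 : Continuous ph0 := by
  unfold ph0
  fun_prop

theorem ph0_of_le {z : ℝ} (h : z ≤ -3 / 8) : ph0 z ≤ -3 / 4 :=
  max_le (by norm_num) (by linarith)

theorem ph0_neg_one : ph0 (-1) = -1 := max_eq_left (by norm_num)

theorem ph0_of_ge {z : ℝ} (h : -1 / 4 ≤ z) : -1 / 2 ≤ ph0 z :=
  le_trans (by linarith) (le_max_right _ _)

theorem neg_one_le_ph0 (z : ℝ) : -1 ≤ ph0 z := le_max_left _ _

/-- The interpolated window. -/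
noncomputable def phc (c z : ℝ) : ℝ := (1 - c) * ph0 z + c * z

theorem phc_zero (z : ℝ) : phc 0 z = ph0 z := by unfold phc; ring

theorem phc_one (z : ℝ) : phc 1 z = z := by unfold phc; ring

variable {m : ℕ}

/-- Change of the first coordinate by the window. -/
noncomputable def win (c : ℝ) (x : (Fin (m + 1) → ℝ) × ℝ) : (Fin (m + 1) → ℝ) × ℝ :=
  (Function.update x.1 0 (phc c (x.1 0)), x.2)

theorem win_one (x : (Fin (m + 1) → ℝ) × ℝ) : win 1 x = x := by
  unfold win
  rw [phc_one, Function.update_eq_self]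

theorem continuous_win : Continuous fun p : ℝ × ((Fin (m + 1) → ℝ) × ℝ) => win p.1 p.2 := by
  unfold win
  refine Continuous.prodMk ?_ (by fun_prop)
  refine Continuous.update (by fun_prop) 0 ?_
  unfold phc
  fun_prop

/-- Faces are preserved by windows. -/
theorem win_face {c : ℝ} (hc : c ∈ Icc (0 : ℝ) 1) {x : (Fin (m + 1) → ℝ) × ℝ}
    (hx1 : ‖x.1‖ ≤ 1) (hx0 : x.1 0 ≤ 0)
    (h : 1 ≤ ‖x.1‖ ∨ 1 ≤ x.2 ∨ -1 / 8 ≤ x.1 0) :
    1 ≤ ‖(win c x).1‖ ∨ 1 ≤ (win c x).2 ∨ -1 / 2 ≤ (win c x).1 0 := by
  rcases h with h | h | h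
  · left
    have h1 : ‖x.1‖ = 1 := le_antisymm hx1 h
    obtain ⟨i, hi⟩ : ∃ i, 1 ≤ |x.1 i| := by
      by_contra hcon
      push Not at hcon
      have h2 : ‖x.1‖ < 1 := (pi_norm_lt_iff one_pos).mpr fun i => hcon i
      exact absurd h1 h2.ne
    by_cases h0 : i = 0
    · subst h0
      have h2 : x.1 0 = -1 := by
        have h3 : |x.1 0| ≤ 1 := (norm_le_pi_norm x.1 0).trans hx1
        rw [abs_of_nonpos hx0] at hi h3
        linarith
      refine le_trans ?_ (norm_le_pi_norm (win c x).1 0)
      have h4 : (win c x).1 0 = -1 := by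
        show Function.update x.1 0 (phc c (x.1 0)) 0 = -1
        rw [Function.update_self, h2]
        unfold phc
        rw [ph0_neg_one]
        ring
      rw [h4]
      norm_num
    · refine le_trans ?_ (norm_le_pi_norm (win c x).1 i)
      have h4 : (win c x).1 i = x.1 i := by
        show Function.update x.1 0 (phc c (x.1 0)) i = x.1 i
        rw [Function.update_of_ne h0]
      rw [h4]
      exact hi
  · right; left
    exact h
  · right; right
    show -1 / 2 ≤ Function.update x.1 0 (phc c (x.1 0)) 0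
    rw [Function.update_self]
    unfold phc
    have h1 := ph0_of_ge (h.trans' (by norm_num))
    obtain ⟨h2, h3⟩ := hc
    nlinarith

/-- To the left of the window there is nothing. -/
theorem win_left {x : (Fin (m + 1) → ℝ) × ℝ} (h : x.1 0 ≤ -3 / 8) :
    (win 0 x).1 0 ≤ -3 / 4 := by
  show Function.update x.1 0 (phc 0 (x.1 0)) 0 ≤ -3 / 4
  rw [Function.update_self, phc_zero]
  exact ph0_of_le h

/-- To the right of the window there is nothing. -/
theorem win_right {x : (Fin (m + 1) → ℝ) × ℝ} (h : -1 / 4 ≤ x.1 0) :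
    -1 / 2 ≤ (win 0 x).1 0 := by
  show -1 / 2 ≤ Function.update x.1 0 (phc 0 (x.1 0)) 0
  rw [Function.update_self, phc_zero]
  exact ph0_of_ge h

section Move

variable {V : Type*} [NormedAddCommGroup V] [InnerProductSpace ℝ V]

/-- Position of the tip of the strand `k`. -/
noncomputable def tipP (o e e2 : V) (L r τ : ℝ) : V :=
  o + ((1 - τ) * L) • e2 - (τ * (1 - 2 * r)) • e

theorem tipP_zero (o e e2 : V) (L r : ℝ) : tipP o e e2 L r 0 = o + L • e2 := by
  unfold tipP
  module

theorem tipP_one (o e e2 : V) (L r : ℝ) : tipP o e e2 L r 1 = o - (1 - 2 * r) • e := by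
  unfold tipP
  module

@[fun_prop]
theorem continuous_tipP (o e e2 : V) (L r : ℝ) : Continuous (tipP o e e2 L r) := by
  unfold tipP
  fun_prop

theorem tipP_mem {H : Submodule ℝ V} {o e e2 : V} (ho : o ∈ H) (he : e ∈ H) (he2 : e2 ∈ H)
    (L r τ : ℝ) : tipP o e e2 L r τ ∈ H :=
  H.sub_mem (H.add_mem ho (H.smul_mem _ he2)) (H.smul_mem _ he)

/-- The direction from `j` to `k`. -/
noncomputable def dirk (o e : V) (ck : (Fin (m + 1) → ℝ) × ℝ → V)
    (x : (Fin (m + 1) → ℝ) × ℝ) : V := ‖ck x - (o - e)‖⁻¹ • (ck x - (o - e))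

variable {o e e2 : V} {ck : (Fin (m + 1) → ℝ) × ℝ → V}

theorem dirk_of_eq (hen : ‖e‖ = 1) {x : (Fin (m + 1) → ℝ) × ℝ} (h : ck x = o) :
    dirk o e ck x = e := by
  unfold dirk
  rw [h, sub_sub_cancel, hen, inv_one, one_smul]

theorem norm_dirk {x : (Fin (m + 1) → ℝ) × ℝ} (h : ck x ≠ o - e) : ‖dirk o e ck x‖ = 1 := by
  unfold dirk
  have h1 : ‖ck x - (o - e)‖ ≠ 0 := norm_ne_zero_iff.mpr (sub_ne_zero.mpr h)
  rw [norm_smul, norm_inv, norm_norm, inv_mul_cancel₀ h1]

theorem continuous_dirk (hc : Continuous ck) (h : ∀ x, ck x ≠ o - e) :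
    Continuous (dirk o e ck) := by
  unfold dirk
  have h1 : ∀ x, ‖ck x - (o - e)‖ ≠ 0 := fun x => norm_ne_zero_iff.mpr (sub_ne_zero.mpr (h x))
  exact ((hc.sub continuous_const).norm.inv₀ h1).smul (hc.sub continuous_const)

theorem dirk_mem {H : Submodule ℝ V} (ho : o ∈ H) (he : e ∈ H) {x : (Fin (m + 1) → ℝ) × ℝ}
    (h : ck x ∈ H) : dirk o e ck x ∈ H :=
  H.smul_mem _ (H.sub_mem h (H.sub_mem ho he))

variable {κ : Type*} [Fintype κ] [DecidableEq κ] [FiniteDimensional ℝ V]

/-- The half cube. -/
def halfC (m : ℕ) : Set (Fin (m + 1) → ℝ) := closedBall 0 1 ∩ {y | y 0 ≤ 0}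

theorem isCompact_halfC : IsCompact (halfC m) :=
  (isCompact_closedBall _ _).inter_right (isClosed_le (continuous_apply 0) continuous_const)

theorem convex_halfC : Convex ℝ (halfC m) :=
  (convex_closedBall _ _).inter
    (convex_halfSpace_le (LinearMap.isLinear (LinearMap.proj (R := ℝ) (φ := fun _ => ℝ) 0)) 0)

theorem nonempty_halfC : (halfC m).Nonempty := ⟨0, by simp [halfC]⟩

/-- The faces of the half cube, and a neighbourhood of the wall. -/
def faceB (m : ℕ) : Set ((Fin (m + 1) → ℝ) × ℝ) :=
  {x | x ∈ halfC m ×ˢ Icc (0 : ℝ) 1 ∧ (1 ≤ ‖x.1‖ ∨ 1 ≤ x.2 ∨ -1 / 8 ≤ x.1 0)}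

theorem isClosed_faceB : IsClosed (faceB m) := by
  have h0 : Continuous fun x : (Fin (m + 1) → ℝ) × ℝ => x.1 0 :=
    (continuous_apply 0).comp continuous_fst
  refine IsClosed.inter (isCompact_halfC.isClosed.prod isClosed_Icc) ?_
  exact (isClosed_le continuous_const continuous_fst.norm).union
    ((isClosed_le continuous_const continuous_snd).union (isClosed_le continuous_const h0))


set_option maxHeartbeats 1000000 in
/-- **The move of the tongue.** -/
theorem exists_move {n : ℕ} (hn : 3 ≤ n) (hV : Module.finrank ℝ V = n + 1)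
    (H : Submodule ℝ V) (hH : Module.finrank ℝ H = n) (hm : m + 2 ≤ n)
    (v : κ → V) (hv : Function.Injective v) (hvH : ∀ i, v i ∈ H)
    (o e e2 : V) (ho : o ∈ H) (he : e ∈ H) (he2 : e2 ∈ H) (hen : ‖e‖ = 1)
    (l : V →L[ℝ] ℝ) (hle : l e = 0) (hl2 : l e2 = 1)
    (r L : ℝ) (hr : 0 < r) (hr1 : 2 * r < 1) (hL : 0 < L)
    (ck : (Fin (m + 1) → ℝ) × ℝ → V) (hc : Continuous ck) (hcH : ∀ y, ck (y, 0) ∈ H)
    (hck : ∀ x, (1 ≤ ‖x.1‖ ∨ 1 ≤ x.2 ∨ -1 / 2 ≤ x.1 0) → ck x = o)
    (hckl : ∀ x, x.1 0 ≤ -3 / 4 → ck x = o)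
    (hcv : ∀ i x, ck x ≠ v i) (hcl : ∀ x, l (ck x) < l o + L)
    (hcr : ∀ x, r < ‖ck x - (o - e)‖)
    (h1 : ∀ i, ∀ s ∈ Icc (0 : ℝ) 1, ∀ τ ∈ Icc (0 : ℝ) 1,
      o + s • (tipP o e e2 L r τ - o) ≠ v i)
    (h2 : ∀ i, 2 * r < ‖tipP o e e2 L r 0 - v i‖)
    (h3 : ∀ i, ∀ τ ∈ Icc (0 : ℝ) 1, tipP o e e2 L r τ - r • e ≠ v i) :
    ∃ F : ℝ × ((Fin (m + 1) → ℝ) × ℝ) → V,
      ContinuousOn F (Icc 0 1 ×ˢ (halfC m ×ˢ Icc 0 1)) ∧
      (∀ x ∈ halfC m ×ˢ Icc (0 : ℝ) 1, F (0, x) = ck x +
        sc (x.1 0) • (tipP o e e2 L r 0 - o) + r • (dirk o e ck (win 0 x) - e)) ∧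
      (∀ x ∈ halfC m ×ˢ Icc (0 : ℝ) 1, F (1, x) = ck x +
        sc (x.1 0) • (tipP o e e2 L r 1 - o)) ∧
      (∀ t ∈ Icc (0 : ℝ) 1, ∀ y ∈ halfC m, F (t, (y, 0)) ∈ H) ∧
      (∀ t ∈ Icc (0 : ℝ) 1, ∀ x ∈ faceB m, F (t, x) =
        o + sc (x.1 0) • (tipP o e e2 L r (cl (4 * t - 1)) - o)) ∧
      (∀ p ∈ Icc (0 : ℝ) 1 ×ˢ (halfC m ×ˢ Icc (0 : ℝ) 1), ∀ i, F p ≠ v i) ∧
      ∀ p ∈ Icc (0 : ℝ) 1 ×ˢ (halfC m ×ˢ Icc (0 : ℝ) 1),
        F p ≠ tipP o e e2 L r (cl (4 * p.1 - 1)) - r • e := by
  classical
  have hce : ∀ x, ck x ≠ o - e := fun x h => by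
    have := hcr x
    rw [h, sub_self, norm_zero] at this
    linarith
  set g : (Fin (m + 1) → ℝ) × ℝ → V := dirk o e ck with hg
  have hgc : Continuous g := continuous_dirk hc hce
  have hgn : ∀ x, ‖g x‖ = 1 := fun x => norm_dirk (hce x)
  have hge : ∀ x, (1 ≤ ‖x.1‖ ∨ 1 ≤ x.2 ∨ -1 / 2 ≤ x.1 0) → g x = e :=
    fun x hx => dirk_of_eq hen (hck x hx)
  have hgH : ∀ y, g (y, 0) ∈ H := fun y => dirk_mem ho he (hcH y)
  set P : ℝ → V := tipP o e e2 L r with hP
  have hPc : Continuous P := continuous_tipP o e e2 L r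
  have hPH : ∀ τ, P τ ∈ H := fun τ => tipP_mem ho he he2 L r τ
  set S : (Fin (m + 1) → ℝ) × ℝ → ℝ := fun x => sc (x.1 0) with hS
  have hx0 : Continuous fun x : (Fin (m + 1) → ℝ) × ℝ => x.1 0 :=
    (continuous_apply 0).comp continuous_fst
  have hSc : Continuous S := continuous_sc.comp hx0
  set G : (Fin (m + 1) → ℝ) × ℝ → V := fun x => g (win 0 x) with hG
  have hwc : ∀ {X : Type} [TopologicalSpace X] {f : X → ℝ} {q : X → (Fin (m + 1) → ℝ) × ℝ},
      Continuous f → Continuous q → Continuous fun z => g (win (f z) (q z)) := by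
    intro X _ f q hf hq
    exact hgc.comp (continuous_win.comp (hf.prodMk hq))
  have hGc : Continuous G := hgc.comp (continuous_win.comp (continuous_const.prodMk continuous_id))
  have hGn : ∀ x, ‖G x‖ = 1 := fun x => hgn _
  have hGe : ∀ x : (Fin (m + 1) → ℝ) × ℝ, x.1 0 ≤ -3 / 8 → G x = e := fun x hx =>
    dirk_of_eq hen (hckl _ (win_left hx))
  have hGface : ∀ c ∈ Icc (0 : ℝ) 1, ∀ x ∈ faceB m, g (win c x) = e := fun c hc' x hx =>
    hge _ (win_face hc' (by simpa using hx.1.1.1) hx.1.1.2 hx.2)
  have hface : ∀ x ∈ faceB m, (1 ≤ ‖x.1‖ ∨ 1 ≤ x.2 ∨ -1 / 2 ≤ x.1 0) := by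
    rintro x ⟨-, h | h | h⟩
    · exact Or.inl h
    · exact Or.inr (Or.inl h)
    · exact Or.inr (Or.inr (by linarith))
  -- `(1 - s) (e - G) = 0`
  have hsG : ∀ x, (1 - S x) • (e - G x) = 0 := by
    intro x
    rcases le_total (x.1 0) (-3 / 8) with h | h
    · rw [hGe x h, sub_self, smul_zero]
    · simp only [hS]
      rw [sc_of_ge h, sub_self, zero_smul]
  have hP1 : o - P 1 = (1 - 2 * r) • e := by
    rw [hP, tipP_one]
    module
  have h0I : (0 : ℝ) ∈ Icc (0 : ℝ) 1 := left_mem_Icc.mpr zero_le_one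
  have h1I : (1 : ℝ) ∈ Icc (0 : ℝ) 1 := right_mem_Icc.mpr zero_le_one
  set M : (Fin (m + 1) → ℝ) × ℝ → ℝ := fun x => (1 - S x) * (1 - 2 * r) + r with hM
  have hMc : Continuous M := by fun_prop
  have hM0 : ∀ x, 0 < M x := by
    intro x
    have h4 := (sc_mem (x.1 0)).2
    have h5 : 0 ≤ (1 - S x) * (1 - 2 * r) := mul_nonneg (by simp only [hS]; linarith) (by linarith)
    simp only [hM]
    linarith
  set A : ℝ → ℝ := fun t => cl (4 * t) with hA
  set Bb : ℝ → ℝ := fun t => cl (4 * t - 1) with hBb
  set Cc : ℝ → ℝ := fun t => cl (4 * t - 2) with hCc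
  set Dd : ℝ → ℝ := fun t => cl (4 * t - 3) with hDd
  have hAc : Continuous A := by fun_prop
  have hBc : Continuous Bb := by fun_prop
  have hCcc : Continuous Cc := by fun_prop
  have hDdc : Continuous Dd := by fun_prop
  -- the other strands
  set a : Option κ → ℝ × ((Fin (m + 1) → ℝ) × ℝ) → V :=
    fun i p => i.elim (P (Bb p.1) - r • e) v with ha
  -- pair homotopies
  set D : Option κ → ℝ × ((Fin (m + 1) → ℝ) × ℝ) → V := fun i p =>
    i.elim ((1 - A p.1) • (ck p.2 - o) + (1 - S p.2) • (o - P (Bb p.1)) + r • G p.2 +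
        M p.2 • (g (win (Cc p.1) p.2) - G p.2) +
        Dd p.1 • (ck p.2 + S p.2 • (P 1 - o) - P 1 + r • e - M p.2 • g p.2))
      (fun i => ck p.2 + S p.2 • (P (Bb p.1) - o) + ((1 - A p.1) * r) • (G p.2 - e) - v i) with hD
  have hac : ∀ i, Continuous (a i) := by
    intro i
    cases i with
    | none => exact (hPc.comp (hBc.comp continuous_fst)).sub continuous_const
    | some i => exact continuous_const
  have hDc : ∀ i, Continuous (D i) := by
    intro i
    have e1 : Continuous fun p : ℝ × ((Fin (m + 1) → ℝ) × ℝ) => ck p.2 := hc.comp continuous_snd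
    have e2' : Continuous fun p : ℝ × ((Fin (m + 1) → ℝ) × ℝ) => S p.2 := hSc.comp continuous_snd
    have e3 : Continuous fun p : ℝ × ((Fin (m + 1) → ℝ) × ℝ) => P (Bb p.1) :=
      hPc.comp (hBc.comp continuous_fst)
    have e4 : Continuous fun p : ℝ × ((Fin (m + 1) → ℝ) × ℝ) => G p.2 := hGc.comp continuous_snd
    have e5 : Continuous fun p : ℝ × ((Fin (m + 1) → ℝ) × ℝ) => M p.2 := hMc.comp continuous_snd
    have e6 : Continuous fun p : ℝ × ((Fin (m + 1) → ℝ) × ℝ) => g (win (Cc p.1) p.2) :=
      hgc.comp (continuous_win.comp ((hCcc.comp continuous_fst).prodMk continuous_snd))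
    have e7 : Continuous fun p : ℝ × ((Fin (m + 1) → ℝ) × ℝ) => g p.2 := hgc.comp continuous_snd
    have e8 : Continuous fun p : ℝ × ((Fin (m + 1) → ℝ) × ℝ) => A p.1 := hAc.comp continuous_fst
    have e9 : Continuous fun p : ℝ × ((Fin (m + 1) → ℝ) × ℝ) => Dd p.1 := hDdc.comp continuous_fst
    cases i with
    | none =>
      show Continuous fun p : ℝ × ((Fin (m + 1) → ℝ) × ℝ) =>
        (1 - A p.1) • (ck p.2 - o) + (1 - S p.2) • (o - P (Bb p.1)) + r • G p.2 +
        M p.2 • (g (win (Cc p.1) p.2) - G p.2) +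
        Dd p.1 • (ck p.2 + S p.2 • (P 1 - o) - P 1 + r • e - M p.2 • g p.2)
      exact (((((continuous_const.sub e8).smul (e1.sub continuous_const)).add
        ((continuous_const.sub e2').smul (continuous_const.sub e3))).add
        (e4.const_smul r)).add (e5.smul (e6.sub e4))).add
        (e9.smul ((((e1.add (e2'.smul continuous_const)).sub continuous_const).add
          continuous_const).sub (e5.smul e7)))
    | some i =>
      show Continuous fun p : ℝ × ((Fin (m + 1) → ℝ) × ℝ) =>
        ck p.2 + S p.2 • (P (Bb p.1) - o) + ((1 - A p.1) * r) • (G p.2 - e) - v i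
      exact ((e1.add (e2'.smul (e3.sub continuous_const))).add
        (((continuous_const.sub e8).mul continuous_const).smul (e4.sub continuous_const))).sub
        continuous_const
  have hA0 : A 0 = 0 := by simp only [hA]; exact cl_of_nonpos (by norm_num)
  have hB0 : Bb 0 = 0 := by simp only [hBb]; exact cl_of_nonpos (by norm_num)
  have hC0 : Cc 0 = 0 := by simp only [hCc]; exact cl_of_nonpos (by norm_num)
  have hD0' : Dd 0 = 0 := by simp only [hDd]; exact cl_of_nonpos (by norm_num)
  have hA1 : A 1 = 1 := by simp only [hA]; exact cl_of_one_le (by norm_num)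
  have hB1 : Bb 1 = 1 := by simp only [hBb]; exact cl_of_one_le (by norm_num)
  have hC1 : Cc 1 = 1 := by simp only [hCc]; exact cl_of_one_le (by norm_num)
  have hD1 : Dd 1 = 1 := by simp only [hDd]; exact cl_of_one_le (by norm_num)
  have hPb : ∀ b, o - P b = -((1 - b) * L) • e2 + (b * (1 - 2 * r)) • e := by
    intro b
    simp only [hP, tipP]
    module
  have hlP : ∀ b, l (o - P b) = -((1 - b) * L) := by
    intro b
    rw [hPb, map_add, map_smul, map_smul, hl2, hle, smul_eq_mul, smul_eq_mul]
    ring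
  have hMe : ∀ x, (1 - S x) • (o - P 1) + r • G x = M x • G x := by
    intro x
    have h4 := hsG x
    have h5 : (1 - S x) • (o - P 1) + r • G x - M x • G x =
        (1 - 2 * r) • ((1 - S x) • (e - G x)) := by
      rw [hP1]
      simp only [hM]
      module
    rw [h4, smul_zero] at h5
    exact sub_eq_zero.mp h5
  have hMe' : ∀ x, (1 - S x) • (o - P 1) + r • e = M x • e := by
    intro x
    rw [hP1]
    simp only [hM]
    module
  have hne : ∀ (c : ℝ) (w : V), 0 < c → ‖w‖ = 1 → c • w ≠ 0 := by
    intro c w hc0 hw h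
    rcases smul_eq_zero.mp h with h | h
    · exact hc0.ne' h
    · rw [h, norm_zero] at hw
      exact zero_ne_one hw
  -- the pair homotopies do not vanish
  have hDnone : ∀ p : ℝ × ((Fin (m + 1) → ℝ) × ℝ), p.1 ∈ Icc (0 : ℝ) 1 → D none p ≠ 0 := by
    rintro ⟨t, x⟩ ⟨ht0, ht1⟩
    simp only at ht0 ht1
    show (1 - A t) • (ck x - o) + (1 - S x) • (o - P (Bb t)) + r • G x +
        M x • (g (win (Cc t) x) - G x) +
        Dd t • (ck x + S x • (P 1 - o) - P 1 + r • e - M x • g x) ≠ 0
    have hA' := cl_mem (4 * t)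
    have hB' := cl_mem (4 * t - 1)
    have hS' := sc_mem (x.1 0)
    rcases le_total t (1 / 4) with ht | ht
    · have b0 : Bb t = 0 := cl_of_nonpos (by linarith)
      have c0 : Cc t = 0 := cl_of_nonpos (by linarith)
      have d0 : Dd t = 0 := cl_of_nonpos (by linarith)
      rw [b0, c0, d0, zero_smul, add_zero]
      have e1 : g (win 0 x) - G x = 0 := sub_self _
      rw [e1, smul_zero, add_zero]
      intro h0
      rcases le_total (x.1 0) (-1 / 2) with hz | hz
      · have s0 : S x = 0 := sc_of_le hz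
        have e2' : G x = e := hGe x (by linarith)
        rw [s0, e2', sub_zero, one_smul] at h0
        have h4 := congrArg l h0
        rw [map_add, map_add, map_smul, map_smul, hle, hlP, map_sub, map_zero, smul_eq_mul,
          smul_zero, add_zero, sub_zero, one_mul] at h4
        have h5 := hcl x
        obtain ⟨h6, h7⟩ := hA'
        have h8 : (1 - A t) * (l (ck x) - l o) < L := by
          rcases le_total (l (ck x) - l o) 0 with h9 | h9
          · have : (1 - A t) * (l (ck x) - l o) ≤ 0 :=
              mul_nonpos_of_nonneg_of_nonpos (by simp only [hA]; linarith) h9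
            linarith
          · have : (1 - A t) * (l (ck x) - l o) ≤ 1 * (l (ck x) - l o) :=
              mul_le_mul_of_nonneg_right (by simp only [hA]; linarith) h9
            linarith
        linarith
      · have e2' : ck x = o := hck x (Or.inr (Or.inr hz))
        rw [e2', sub_self, smul_zero, zero_add] at h0
        have hs1 : S x = 1 := by
          rcases le_total (x.1 0) (-3 / 8) with h | h
          · rw [hGe x h] at h0
            have h4 := congrArg l h0
            rw [map_add, map_smul, map_smul, hle, hlP, map_zero, smul_eq_mul, smul_zero,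
              add_zero, sub_zero, one_mul] at h4
            have h5 : (1 - S x) * L = 0 := by linarith
            rcases mul_eq_zero.mp h5 with h6 | h6
            · linarith
            · exact absurd h6 hL.ne'
          · exact sc_of_ge h
        rw [hs1, sub_self, zero_smul, zero_add] at h0
        exact hne r (G x) hr (hGn x) h0
    have a1 : A t = 1 := cl_of_one_le (by linarith)
    rw [a1, sub_self, zero_smul, zero_add]
    rcases le_total t (1 / 2) with ht' | ht'
    · have c0 : Cc t = 0 := cl_of_nonpos (by linarith)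
      have d0 : Dd t = 0 := cl_of_nonpos (by linarith)
      rw [c0, d0, zero_smul, add_zero]
      have e1 : g (win 0 x) - G x = 0 := sub_self _
      rw [e1, smul_zero, add_zero]
      intro h0
      rcases le_total (-3 / 8) (x.1 0) with hz | hz
      · have hs1 : S x = 1 := sc_of_ge hz
        rw [hs1, sub_self, zero_smul, zero_add] at h0
        exact hne r (G x) hr (hGn x) h0
      · rw [hGe x hz] at h0
        have h4 := congrArg l h0
        rw [map_add, map_smul, map_smul, hle, hlP, map_zero, smul_eq_mul, smul_zero,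
          add_zero] at h4
        have h5 : (1 - S x) * (1 - Bb t) = 0 := by
          have h6 : (1 - S x) * (1 - Bb t) * L = 0 := by linarith
          rcases mul_eq_zero.mp h6 with h7 | h7
          · exact h7
          · exact absurd h7 hL.ne'
        have h6 : (1 - S x) • (o - P (Bb t)) + r • e =
            ((1 - S x) * (Bb t * (1 - 2 * r)) + r) • e := by
          rw [hPb, smul_add, smul_smul]
          have : (1 - S x) * -((1 - Bb t) * L) = 0 := by
            have : (1 - S x) * -((1 - Bb t) * L) = -(((1 - S x) * (1 - Bb t)) * L) := by ring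
            rw [this, h5, zero_mul, neg_zero]
          rw [this, zero_smul]
          module
        rw [h6] at h0
        refine hne _ e ?_ hen h0
        have h7 : 0 ≤ (1 - S x) * (Bb t * (1 - 2 * r)) :=
          mul_nonneg (by simp only [hS]; linarith [hS'.2]) (mul_nonneg hB'.1 (by linarith))
        linarith
    have b1 : Bb t = 1 := cl_of_one_le (by linarith)
    rw [b1, hMe]
    rcases le_total t (3 / 4) with ht'' | ht''
    · have d0 : Dd t = 0 := cl_of_nonpos (by linarith)
      rw [d0, zero_smul, add_zero, ← smul_add, add_sub_cancel]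
      exact hne _ _ (hM0 x) (hgn _)
    · have c1 : Cc t = 1 := cl_of_one_le (by linarith)
      rw [c1, win_one, ← smul_add, add_sub_cancel]
      rcases le_total (x.1 0) (-1 / 2) with hz | hz
      · have s0 : S x = 0 := sc_of_le hz
        have hM1 : M x = 1 - r := by
          simp only [hM, s0]
          ring
        have hD' := cl_mem (4 * t - 3)
        have h4 : ck x - (o - e) = ‖ck x - (o - e)‖ • g x := by
          simp only [hg, dirk]
          rw [smul_smul, mul_inv_cancel₀ (norm_ne_zero_iff.mpr (sub_ne_zero.mpr (hce x))),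
            one_smul]
        have h5 : ck x + S x • (P 1 - o) - P 1 + r • e - M x • g x =
            (‖ck x - (o - e)‖ - (1 - r)) • g x - r • e := by
          rw [s0, zero_smul, add_zero, hM1]
          have h6 : ck x - P 1 + r • e = (ck x - (o - e)) - r • e := by
            rw [hP, tipP_one]
            module
          rw [h6]
          generalize ‖ck x - (o - e)‖ = N at h4
          rw [h4]
          module
        rw [h5, hM1]
        intro h0
        have h6 := congrArg (fun w => inner ℝ w (g x)) h0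
        simp only [inner_add_left, inner_sub_left, inner_smul_left, inner_zero_left,
          real_inner_self_eq_norm_sq, hgn] at h6
        simp only [conj_trivial, one_pow, mul_one] at h6
        have h7 : inner ℝ e (g x) ≤ 1 := by
          have := real_inner_le_norm e (g x)
          rwa [hen, hgn, mul_one] at this
        have h8 := hcr x
        obtain ⟨h9, h10⟩ := hD'
        have h11 : 0 ≤ Dd t * r * (1 - inner ℝ e (g x)) :=
          mul_nonneg (mul_nonneg h9 hr.le) (by linarith)
        have h12 : 0 ≤ Dd t * (‖ck x - (o - e)‖ - r) := mul_nonneg h9 (by linarith)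
        have h13 : 0 ≤ (1 - Dd t) * (1 - r) := mul_nonneg (by simp only [hDd]; linarith)
          (by linarith)
        have h14 : (1 - Dd t) * (1 - r) + Dd t * (‖ck x - (o - e)‖ - r) = 0 := by
          nlinarith
        have h15 : (1 - Dd t) * (1 - r) = 0 := by linarith
        have h16 : Dd t * (‖ck x - (o - e)‖ - r) = 0 := by linarith
        have h17 : Dd t = 1 := by
          rcases mul_eq_zero.mp h15 with h | h
          · linarith
          · exfalso; linarith
        rw [h17, one_mul] at h16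
        linarith
      · have e1 : ck x = o := hck x (Or.inr (Or.inr hz))
        have e2' : g x = e := hge x (Or.inr (Or.inr hz))
        have h5 : ck x + S x • (P 1 - o) - P 1 + r • e - M x • g x = 0 := by
          rw [e1, e2', ← hMe' x]
          module
        rw [h5, smul_zero, add_zero, e2']
        exact hne _ e (hM0 x) hen
  have hDsome : ∀ (i : κ) (p : ℝ × ((Fin (m + 1) → ℝ) × ℝ)), p.1 ∈ Icc (0 : ℝ) 1 →
      D (some i) p ≠ 0 := by
    rintro i ⟨t, x⟩ ⟨ht0, ht1⟩
    simp only at ht0 ht1
    show ck x + S x • (P (Bb t) - o) + ((1 - A t) * r) • (G x - e) - v i ≠ 0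
    have hA' := cl_mem (4 * t)
    have hB' := cl_mem (4 * t - 1)
    have hS' := sc_mem (x.1 0)
    rcases le_total (x.1 0) (-1 / 2) with hz | hz
    · have s0 : S x = 0 := sc_of_le hz
      have e2' : G x = e := hGe x (by linarith)
      rw [s0, e2', sub_self, zero_smul, smul_zero, add_zero, add_zero]
      exact sub_ne_zero.mpr (hcv i x)
    · have e1 : ck x = o := hck x (Or.inr (Or.inr hz))
      rw [e1]
      rcases le_total t (1 / 4) with ht | ht
      · have b0 : Bb t = 0 := cl_of_nonpos (by linarith)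
        rw [b0]
        rcases le_total (x.1 0) (-3 / 8) with h | h
        · rw [hGe x h, sub_self, smul_zero, add_zero]
          exact sub_ne_zero.mpr (h1 i (S x) hS' 0 h0I)
        · have hs1 : S x = 1 := sc_of_ge h
          rw [hs1, one_smul, add_sub_cancel]
          intro h0
          have h4 : P 0 - v i = -(((1 - A t) * r) • (G x - e)) := by
            have h5 : P 0 - v i + ((1 - A t) * r) • (G x - e) = 0 := by
              rw [← h0]; abel
            exact eq_neg_of_add_eq_zero_left h5
          have h5 := h2 i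
          have h6 : ‖P 0 - v i‖ ≤ 2 * r := by
            rw [h4, norm_neg, norm_smul, Real.norm_eq_abs]
            have h7 : ‖G x - e‖ ≤ 2 := by
              refine (norm_sub_le _ _).trans ?_
              rw [hGn, hen]; norm_num
            have h8 : |(1 - A t) * r| ≤ r := by
              rw [abs_of_nonneg (mul_nonneg (by simp only [hA]; linarith [hA'.2]) hr.le)]
              have : (1 - A t) * r ≤ 1 * r := mul_le_mul_of_nonneg_right
                (by simp only [hA]; linarith [hA'.1]) hr.le
              linarith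
            calc |(1 - A t) * r| * ‖G x - e‖ ≤ r * 2 :=
                  mul_le_mul h8 h7 (norm_nonneg _) hr.le
              _ = 2 * r := by ring
          linarith
      · have a1 : A t = 1 := cl_of_one_le (by linarith)
        rw [a1, sub_self, zero_mul, zero_smul, add_zero]
        exact sub_ne_zero.mpr (h1 i (S x) hS' (Bb t) hB')
  have hD0 : ∀ i, ∀ p ∈ Icc (0 : ℝ) 1 ×ˢ (halfC m ×ˢ Icc (0 : ℝ) 1), D i p ≠ 0 := by
    intro i p hp
    cases i with
    | none => exact hDnone p hp.1
    | some i => exact hDsome i p hp.1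
  have hrimC : ∀ (c : ℝ) (y : Fin (m + 1) → ℝ), g (win c (y, 0)) ∈ H := fun c y => hgH _
  obtain ⟨F, hF, hF0, hF1, hFr, hFB, hFa⟩ := strand_rim_mov (κ := Option κ) hn hV H hH
    (W := Fin (m + 1) → ℝ) (by simp only [Module.finrank_fin_fun]; omega) (C := halfC m) (B := faceB m) isCompact_halfC
    convex_halfC nonempty_halfC isClosed_faceB (fun x hx => hx.1) a
    (fun i => (hac i).continuousOn) (by
      rintro ⟨t, x⟩ ⟨ht, hx⟩ i j hij
      simp only at ht
      cases i with
      | none =>
        cases j with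
        | none => rfl
        | some j => exact absurd hij (h3 j (Bb t) (cl_mem _))
      | some i =>
        cases j with
        | none => exact absurd hij.symm (h3 i (Bb t) (cl_mem _))
        | some j => exact congrArg some (hv hij)) (by
      intro i t ht y hy
      cases i with
      | none => exact H.sub_mem (hPH _) (H.smul_mem _ he)
      | some i => exact hvH i)
    (fun x => ck x + S x • (P 0 - o) + r • (G x - e)) (fun x => ck x + S x • (P 1 - o))
    (by fun_prop) (by fun_prop)
    (fun y _ => H.add_mem (H.add_mem (hcH y) (H.smul_mem _ (H.sub_mem (hPH _) ho)))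
      (H.smul_mem _ (H.sub_mem (hrimC 0 y) he)))
    (fun y _ => H.add_mem (hcH y) (H.smul_mem _ (H.sub_mem (hPH _) ho)))
    (fun p => o + S p.2 • (P (Bb p.1) - o)) (by fun_prop)
    (by
      intro x hx
      show o + S x • (P (Bb 0) - o) = ck x + S x • (P 0 - o) + r • (g (win 0 x) - e)
      rw [hB0, hck x (hface x hx), hGface 0 h0I x hx, sub_self, smul_zero, add_zero])
    (by
      intro x hx
      show o + S x • (P (Bb 1) - o) = ck x + S x • (P 1 - o)
      rw [hB1, hck x (hface x hx)])
    (fun t _ y _ => H.add_mem ho (H.smul_mem _ (H.sub_mem (hPH _) ho)))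
    D (fun i => (hDc i).continuousOn) hD0
    (by
      intro i x hx
      cases i with
      | none =>
        show (1 - A 0) • (ck x - o) + (1 - S x) • (o - P (Bb 0)) + r • G x +
          M x • (g (win (Cc 0) x) - G x) +
          Dd 0 • (ck x + S x • (P 1 - o) - P 1 + r • e - M x • g x) =
          ck x + S x • (P 0 - o) + r • (G x - e) - (P (Bb 0) - r • e)
        rw [hA0, hB0, hC0, hD0']
        have e1 : g (win 0 x) = G x := rfl
        rw [e1]
        module
      | some i =>
        show ck x + S x • (P (Bb 0) - o) + ((1 - A 0) * r) • (G x - e) - v i =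
          ck x + S x • (P 0 - o) + r • (G x - e) - v i
        rw [hA0, hB0, sub_zero, one_mul])
    (by
      intro i x hx
      cases i with
      | none =>
        show (1 - A 1) • (ck x - o) + (1 - S x) • (o - P (Bb 1)) + r • G x +
          M x • (g (win (Cc 1) x) - G x) +
          Dd 1 • (ck x + S x • (P 1 - o) - P 1 + r • e - M x • g x) =
          ck x + S x • (P 1 - o) - (P (Bb 1) - r • e)
        rw [hA1, hB1, hC1, hD1, win_one, sub_self, zero_smul, zero_add, hMe]
        module
      | some i =>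
        show ck x + S x • (P (Bb 1) - o) + ((1 - A 1) * r) • (G x - e) - v i =
          ck x + S x • (P 1 - o) - v i
        rw [hA1, hB1, sub_self, zero_mul, zero_smul, add_zero])
    (by
      intro i t ht y hy
      cases i with
      | none =>
        refine H.add_mem (H.add_mem (H.add_mem (H.add_mem ?_ ?_) ?_) ?_) ?_
        · exact H.smul_mem _ (H.sub_mem (hcH y) ho)
        · exact H.smul_mem _ (H.sub_mem ho (hPH _))
        · exact H.smul_mem _ (hrimC 0 y)
        · exact H.smul_mem _ (H.sub_mem (hrimC _ y) (hrimC 0 y))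
        · exact H.smul_mem _ (H.sub_mem (H.add_mem (H.sub_mem (H.add_mem (hcH y)
            (H.smul_mem _ (H.sub_mem (hPH _) ho))) (hPH _)) (H.smul_mem _ he))
            (H.smul_mem _ (hgH y)))
      | some i =>
        exact H.sub_mem (H.add_mem (H.add_mem (hcH y) (H.smul_mem _ (H.sub_mem (hPH _) ho)))
          (H.smul_mem _ (H.sub_mem (hrimC 0 y) he))) (hvH i))
    (by
      intro i t ht x hx
      cases i with
      | none =>
        show (1 - A t) • (ck x - o) + (1 - S x) • (o - P (Bb t)) + r • G x +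
          M x • (g (win (Cc t) x) - G x) +
          Dd t • (ck x + S x • (P 1 - o) - P 1 + r • e - M x • g x) =
          o + S x • (P (Bb t) - o) - (P (Bb t) - r • e)
        have e1 : G x = e := hGface 0 h0I x hx
        have e3 : g x = e := hge x (hface x hx)
        rw [hGface (Cc t) (cl_mem _) x hx, e1, hck x (hface x hx), e3]
        have h5 : o + S x • (P 1 - o) - P 1 + r • e - M x • e = 0 := by
          rw [← hMe' x]
          module
        rw [h5, smul_zero, add_zero, sub_self, smul_zero, sub_self, smul_zero]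
        module
      | some i =>
        show ck x + S x • (P (Bb t) - o) + ((1 - A t) * r) • (G x - e) - v i =
          o + S x • (P (Bb t) - o) - v i
        have e1 : G x = e := hGface 0 h0I x hx
        rw [e1, hck x (hface x hx), sub_self, smul_zero, add_zero])
  exact ⟨F, hF, hF0, hF1, hFr, hFB, fun p hp i => hFa p hp (some i), fun p hp => hFa p hp none⟩

end Move

end Vale.Agent.P268.T.H277
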