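import Vale.Agent.P268.T.H277.Props
import Vale.Agent.P268.T.H277.Move
import Vale.Agent.P268.T.H83.Lift

/-!
# P268, topological half, block B6c: the data of the slide

Index set `A` of the sheets, `z` = the constant sheet, `k` = the sheet which is slid over `j`.

* `SD` : windowed data; `SG` : geometry and parameters.
* `c1` : the data after the lift (input of the splitting at `z`).
* `hd` : hairpin data of the slide; `hd0`, `hd1`, `hd2`, `hd3` the four stages: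
  `hd0` after the splitting at `z`, `hd1` with `z` moved away, `hd2` with the letter at the tip,
  `hd3` after the move to `j`.
* `c4` : the data after the splitting at `j` (backwards).
-/

namespace Vale.Agent.P268.T.H277

open Set Filter Topology Metric
open Vale.Agent.P268.T.H83

/-- Side and top faces of the cube. -/
def Face {d : ℕ} (x : Pk d) : Prop := (∃ l, l ≠ Fin.last _ ∧ |x l| = 1) ∨ x (Fin.last _) = 1

/-- Windowed data of a slide. -/
structure SD {d : ℕ} {A : Type} (c ν : A → Pk d → Vk d) (v : A → Vk d) (z j k : A) : Prop where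
  dat : BData (frk d).h c ν
  zj : z ≠ j
  zk : z ≠ k
  jk : j ≠ k
  cz : ∀ x, c z x = v z
  nz : ∀ x, ν z x = (frk d).h
  left : ∀ i, i ≠ k → ∀ x, ‖x‖ ≤ 1 → x 0 ≤ 1 / 4 → c i x = v i ∧ ν i x = (frk d).h
  right : ∀ x, ‖x‖ ≤ 1 → -1 / 2 ≤ x 0 → c k x = v k ∧ ν k x = (frk d).h
  face : ∀ i x, ‖x‖ ≤ 1 → Face x → c i x = v i ∧ ν i x = (frk d).h
  win : ∀ i, ConstOn (1 / 2) 1 (c i) ∧ ConstOn (1 / 2) 1 (ν i) ∧
    ConstOn (-1) (-3 / 4) (c i) ∧ ConstOn (-1) (-3 / 4) (ν i)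

/-- Geometry and parameters of a slide. -/
structure SG {d : ℕ} {A : Type} (c : A → Pk d → Vk d) (v : A → Vk d) (z j k : A)
    (e2 : Vk d) (L r : ℝ) : Prop where
  n1 : ‖v k - v j‖ = 1
  vh : ∀ i, i ≠ z → inner ℝ (v i) (frk d).h = 0
  e2n : ‖e2‖ = 1
  e2h : inner ℝ e2 (frk d).h = 0
  e2v : ∀ i, i ≠ z → inner ℝ e2 (v i) = 0
  seg : ∀ i, i ≠ z → i ≠ j → i ≠ k → ∀ s ∈ Icc (0 : ℝ) 1, v k - s • (v k - v j) ≠ v i
  hL : ∀ i, i ≠ z → ∀ x, ‖x‖ ≤ 1 → ‖c i x - v k‖ + 8 ≤ L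
  hr : 0 < r
  hr8 : 8 * r ≤ 1
  gap : ∀ i i', i ≠ z → i' ≠ z → i ≠ i' → ∀ x, ‖x‖ ≤ 1 → 6 * r ≤ ‖c i x - c i' x‖

/-! ### The coordinates of the cube -/

/-- Clamp to `[-1,1]`. -/
noncomputable def cl1 (a : ℝ) : ℝ := max (-1) (min 1 a)

@[fun_prop]
theorem continuous_cl1 : Continuous cl1 := by
  unfold cl1
  fun_prop

theorem cl1_of_mem {a : ℝ} (h : |a| ≤ 1) : cl1 a = a := by
  obtain ⟨h1, h2⟩ := abs_le.mp h
  unfold cl1
  rw [min_eq_right h2, max_eq_right h1]

theorem abs_cl1_le (a : ℝ) : |cl1 a| ≤ 1 := by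
  unfold cl1
  exact abs_le.mpr ⟨le_max_left _ _, max_le (by norm_num) (min_le_left _ _)⟩

theorem abs_cl1_of_le {a : ℝ} (h : 1 ≤ |a|) : |cl1 a| = 1 := by
  unfold cl1
  rcases le_total 0 a with h0 | h0
  · rw [abs_of_nonneg h0] at h
    rw [min_eq_left h, max_eq_right (by norm_num)]
    norm_num
  · rw [abs_of_nonpos h0] at h
    rw [min_eq_right (by linarith), max_eq_left (by linarith)]
    norm_num

/-- From the cube to `W × ℝ`, with the depth in `[0,1]`. -/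
noncomputable def toW {d : ℕ} (x : Pk d) : (Fin (d + 1 + 1) → ℝ) × ℝ :=
  (fun l => x l.castSucc, (x (Fin.last _) + 1) / 2)

/-- From `W × ℝ` to the cube, with clamping. -/
noncomputable def ofW {d : ℕ} (p : (Fin (d + 1 + 1) → ℝ) × ℝ) : Pk d :=
  Fin.snoc (α := fun _ => ℝ) (fun l => cl1 (p.1 l)) (cl1 (2 * p.2 - 1))

theorem ofW_last {d : ℕ} (p : (Fin (d + 1 + 1) → ℝ) × ℝ) :
    ofW p (Fin.last _) = cl1 (2 * p.2 - 1) := by
  unfold ofW
  exact Fin.snoc_last _ _

theorem ofW_castSucc {d : ℕ} (p : (Fin (d + 1 + 1) → ℝ) × ℝ) (l : Fin (d + 1 + 1)) :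
    ofW p l.castSucc = cl1 (p.1 l) := by
  unfold ofW
  exact Fin.snoc_castSucc (α := fun _ => ℝ) _ _ _

theorem ofW_zero {d : ℕ} (p : (Fin (d + 1 + 1) → ℝ) × ℝ) : ofW p 0 = cl1 (p.1 0) :=
  ofW_castSucc p 0

theorem continuous_toW {d : ℕ} : Continuous (toW : Pk d → (Fin (d + 1 + 1) → ℝ) × ℝ) := by
  unfold toW
  fun_prop

theorem continuous_ofW {d : ℕ} : Continuous (ofW : (Fin (d + 1 + 1) → ℝ) × ℝ → Pk d) := by
  refine continuous_pi fun l => ?_
  rcases Fin.eq_castSucc_or_eq_last l with ⟨l', rfl⟩ | rfl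
  · simp only [ofW_castSucc]
    fun_prop
  · simp only [ofW_last]
    fun_prop

theorem norm_ofW_le {d : ℕ} (p : (Fin (d + 1 + 1) → ℝ) × ℝ) : ‖ofW p‖ ≤ 1 := by
  refine (pi_norm_le_iff_of_nonneg zero_le_one).mpr fun l => ?_
  rcases Fin.eq_castSucc_or_eq_last l with ⟨l', rfl⟩ | rfl
  · rw [ofW_castSucc]
    exact abs_cl1_le _
  · rw [ofW_last]
    exact abs_cl1_le _

theorem ofW_toW {d : ℕ} {x : Pk d} (hx : ‖x‖ ≤ 1) : ofW (toW x) = x := by
  funext l
  have h1 : |x l| ≤ 1 := (norm_le_pi_norm x l).trans hx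
  rcases Fin.eq_castSucc_or_eq_last l with ⟨l', rfl⟩ | rfl
  · rw [ofW_castSucc]
    exact cl1_of_mem h1
  · rw [ofW_last]
    show cl1 (2 * ((x (Fin.last _) + 1) / 2) - 1) = _
    rw [show 2 * ((x (Fin.last (d + 1 + 1)) + 1) / 2) - 1 = x (Fin.last _) by ring]
    exact cl1_of_mem h1

theorem toW_fst_zero {d : ℕ} (x : Pk d) : (toW x).1 0 = x 0 := rfl

theorem norm_toW_fst_le {d : ℕ} {x : Pk d} (hx : ‖x‖ ≤ 1) : ‖(toW x).1‖ ≤ 1 :=
  (pi_norm_le_iff_of_nonneg zero_le_one).mpr fun l => (norm_le_pi_norm x l.castSucc).trans hx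

theorem toW_snd_mem {d : ℕ} {x : Pk d} (hx : ‖x‖ ≤ 1) : (toW x).2 ∈ Icc (0 : ℝ) 1 := by
  have h1 : |x (Fin.last _)| ≤ 1 := (norm_le_pi_norm x _).trans hx
  obtain ⟨h2, h3⟩ := abs_le.mp h1
  constructor
  · show 0 ≤ (x (Fin.last _) + 1) / 2
    linarith
  · show (x (Fin.last _) + 1) / 2 ≤ 1
    linarith

/-- The half cube in the coordinates of `W × ℝ`. -/
theorem toW_mem {d : ℕ} {x : Pk d} (hx : ‖x‖ ≤ 1) (h0 : x 0 ≤ 0) :
    toW x ∈ halfC (d + 1) ×ˢ Icc (0 : ℝ) 1 :=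
  ⟨⟨by rw [mem_closedBall_zero_iff]; exact norm_toW_fst_le hx, h0⟩, toW_snd_mem hx⟩

theorem face_toW {d : ℕ} {x : Pk d} (h : Face x) : 1 ≤ ‖(toW x).1‖ ∨ 1 ≤ (toW x).2 := by
  rcases h with ⟨l, hl, h⟩ | h
  · left
    rcases Fin.eq_castSucc_or_eq_last l with ⟨l', rfl⟩ | rfl
    · exact h.ge.trans (norm_le_pi_norm (toW x).1 l')
    · exact absurd rfl hl
  · right
    show 1 ≤ (x (Fin.last _) + 1) / 2
    rw [h]
    norm_num

theorem face_ofW {d : ℕ} {p : (Fin (d + 1 + 1) → ℝ) × ℝ} (h : 1 ≤ ‖p.1‖ ∨ 1 ≤ p.2) :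
    Face (ofW p) := by
  rcases h with h | h
  · left
    obtain ⟨i, hi⟩ : ∃ i, 1 ≤ |p.1 i| := by
      by_contra hcon
      push Not at hcon
      have h2 : ‖p.1‖ < 1 := (pi_norm_lt_iff one_pos).mpr fun i => hcon i
      exact absurd h (not_le.mpr h2)
    exact ⟨i.castSucc, (Fin.castSucc_lt_last i).ne, by rw [ofW_castSucc]; exact abs_cl1_of_le hi⟩
  · right
    rw [ofW_last]
    unfold cl1
    rw [min_eq_left (by linarith), max_eq_right (by norm_num)]

/-- On the sphere: a face, or the rim. -/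
theorem face_or_rim {d : ℕ} {x : Pk d} (hx : ‖x‖ = 1) : Face x ∨ (toW x).2 = 0 := by
  obtain ⟨i, hi⟩ : ∃ i, |x i| = 1 := by
    by_contra hcon
    push Not at hcon
    have h1 : ∀ i, ‖x i‖ < 1 := fun i =>
      lt_of_le_of_ne ((norm_le_pi_norm x i).trans hx.le) (hcon i)
    have h2 : ‖x‖ < 1 := (pi_norm_lt_iff one_pos).mpr h1
    exact absurd hx h2.ne
  by_cases hl : i = Fin.last _
  · subst hl
    rcases (abs_eq zero_le_one).mp hi with h | h
    · exact Or.inl (Or.inr h)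
    · right
      show (x (Fin.last _) + 1) / 2 = 0
      rw [h]
      norm_num
  · exact Or.inl (Or.inl ⟨i, hl, hi⟩)

/-! ### The data -/

variable {d : ℕ} {A : Type} [DecidableEq A]

/-- Data after the lift. -/
noncomputable def c1 (c : A → Pk d → Vk d) (v : A → Vk d) (z j k : A) (e2 : Vk d) (L r : ℝ) :
    A → Pk d → Vk d := fun i =>
  if i = k then fun x => c k x + (lifts (x 0) * L) • e2
  else if i = z then fun _ => v k + L • e2 - (2 * r) • (v k - v j) else c i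

/-- Hairpin data of the slide: `e'` = direction, `bz` = position of `z`, `Pt` = tip of `k`. -/
noncomputable def hd (c ν : A → Pk d → Vk d) (z k : A) (e' bz Pt : Vk d) (r : ℝ)
    (bk nk : Pk d → Vk d) : HData {i : A // i ≠ k} (Pk d) (Vk d) where
  b i := if i.1 = z then fun _ => bz else c i.1
  n i := ν i.1
  bk := bk
  nk := nk
  bt _ := Pt - r • e'
  nt _ := (frk d).h
  m _ := Pt - (r / 2) • e'
  ph _ := e'
  nw _ := (frk d).h
  r0 := r / 2
  c := 0

/-- The strand `k` in the coordinates of `W × ℝ`. -/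
noncomputable def ckW (c : A → Pk d → Vk d) (k : A) : (Fin (d + 1 + 1) → ℝ) × ℝ → Vk d :=
  fun p => c k (ofW p)

/-- The letter at the tip. -/
noncomputable def Glet (c : A → Pk d → Vk d) (v : A → Vk d) (j k : A) (x : Pk d) : Vk d :=
  dirk (v k) (v k - v j) (ckW c k) (win 0 (toW x))

/-- The normal of `k` with the letter. -/
noncomputable def nk2 (c ν : A → Pk d → Vk d) (v : A → Vk d) (j k : A) (x : Pk d) : Vk d :=
  if x 0 ≤ -3 / 8 then ν k x else rfl' (Glet c v j k x) (frk d).h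

/-- After the splitting at `z`. -/
noncomputable def hd0 (c ν : A → Pk d → Vk d) (v : A → Vk d) (z j k : A) (e2 : Vk d) (L r : ℝ) :
    HData {i : A // i ≠ k} (Pk d) (Vk d) :=
  hd c ν z k (v k - v j) (v k + L • e2 - (2 * r) • (v k - v j)) (v k + L • e2) r
    (fun x => c k x + (lifts (x 0) * L) • e2) (ν k)

/-- With `z` moved away. -/
noncomputable def hd1 (c ν : A → Pk d → Vk d) (v : A → Vk d) (z j k : A) (e2 : Vk d) (L r : ℝ) :
    HData {i : A // i ≠ k} (Pk d) (Vk d) :=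
  hd c ν z k (v k - v j) (v k + L • e2 - (4 * r) • (v k - v j)) (v k + L • e2) r
    (fun x => c k x + (sc (x 0) * L) • e2) (ν k)

/-- With the letter at the tip. -/
noncomputable def hd2 (c ν : A → Pk d → Vk d) (v : A → Vk d) (z j k : A) (e2 : Vk d) (L r : ℝ) :
    HData {i : A // i ≠ k} (Pk d) (Vk d) :=
  hd c ν z k (v k - v j) (v k + L • e2 - (4 * r) • (v k - v j)) (v k + L • e2) r
    (fun x => c k x + (sc (x 0) * L) • e2 + r • (Glet c v j k x - (v k - v j))) (nk2 c ν v j k)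

/-- After the move to `j`. -/
noncomputable def hd3 (c ν : A → Pk d → Vk d) (v : A → Vk d) (z j k : A) (e2 : Vk d) (L r : ℝ) :
    HData {i : A // i ≠ k} (Pk d) (Vk d) :=
  hd c ν z k (v k - v j) (v k + L • e2 - (4 * r) • (v k - v j)) (v j + (2 * r) • (v k - v j)) r
    (fun x => c k x + sc (x 0) • (v j + (2 * r) • (v k - v j) - v k)) (nk2 c ν v j k)

/-- Data after the splitting at `j`: the strand `k` runs parallel to `j` to the right of the
wall, in the direction `a`. -/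
noncomputable def c4 (c : A → Pk d → Vk d) (v : A → Vk d) (z j k : A) (a : Pk d → Vk d)
    (e2 : Vk d) (L r : ℝ) : A → Pk d → Vk d := fun i =>
  if i = k then fun x => if x 0 ≤ 0 then
      c k x + sc (x 0) • (v j + (2 * r) • (v k - v j) - v k) else c j x + (2 * r) • a x
  else if i = z then fun _ => v k + L • e2 - (4 * r) • (v k - v j) else c i

/-- Normals after the splitting at `j`. -/
noncomputable def n4 (c ν : A → Pk d → Vk d) (v : A → Vk d) (j k : A) : A → Pk d → Vk d := fun i =>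
  if i = k then fun x => if x 0 ≤ 0 then nk2 c ν v j k x else ν j x else ν i

end Vale.Agent.P268.T.H277
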