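import Vale.Agent.P268.T.H277.HdFam
import Vale.Agent.P268.H288.FreeInv

/-!
# P268, topological half, block B6c: elementary facts on the data of the slide
-/

set_option linter.unusedSectionVars false

namespace Vale.Agent.P268.T.H277

open Set Filter Topology Metric
open Vale.Agent.P268.T.H83 Vale.Agent.P268.H288

variable {d : ℕ} {A : Type} [DecidableEq A]
  {c ν : A → Pk d → Vk d} {v : A → Vk d} {z j k : A}

/-! ### Elementary facts on the data -/

theorem SD.cont (h : SD c ν v z j k) (i : A) : ContinuousOn (c i) (closedBall 0 1) :=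
  (h.dat.cb i).comp (f := fun x : Pk d => ((), x)) (by fun_prop) (fun _ hx => ⟨mem_univ _, hx⟩)

theorem SD.contn (h : SD c ν v z j k) (i : A) : ContinuousOn (ν i) (closedBall 0 1) :=
  (h.dat.cn i).comp (f := fun x : Pk d => ((), x)) (by fun_prop) (fun _ hx => ⟨mem_univ _, hx⟩)

theorem SD.inj (h : SD c ν v z j k) {x : Pk d} (hx : ‖x‖ ≤ 1) {i i' : A} (hi : i ≠ i') :
    c i x ≠ c i' x := fun he =>
  hi (h.dat.inj () (mem_univ _) x (by simpa using hx) he)

theorem SD.perp (h : SD c ν v z j k) (i : A) {x : Pk d} (hx : ‖x‖ = 1) :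
    inner ℝ (c i x) (frk d).h = 0 := h.dat.bh () (mem_univ _) i x hx

theorem SD.nperp (h : SD c ν v z j k) (i : A) {x : Pk d} (hx : ‖x‖ = 1) :
    ν i x = (frk d).h := h.dat.nh () (mem_univ _) i x hx

theorem SD.nnorm (h : SD c ν v z j k) (i : A) {x : Pk d} (hx : ‖x‖ ≤ 1) : ‖ν i x‖ = 1 :=
  h.dat.nn () (mem_univ _) i x (by simpa using hx)

/-- The base positions are distinct. -/
theorem SD.vinj (h : SD c ν v z j k) {i i' : A} (hi : i ≠ i') : v i ≠ v i' := by
  have h1 : ‖(0 : Pk d)‖ ≤ 1 := by simp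
  have h2 : ∀ i, c i 0 = v i := by
    intro i
    by_cases hk : i = k
    · subst hk
      exact (h.right 0 h1 (by simp only [Pi.zero_apply]; norm_num)).1
    · exact (h.left i hk 0 h1 (by simp)).1
  rw [← h2 i, ← h2 i']
  exact h.inj h1 hi

/-- To the left of `x 0 = -3/4` the strand `k` is constant. -/
theorem SD.kleft (h : SD c ν v z j k) {x : Pk d} (hx : ‖x‖ ≤ 1) (hx0 : x 0 ≤ -3 / 4) :
    c k x = v k ∧ ν k x = (frk d).h := by
  have h1 : -1 ≤ x 0 := by
    have : |x 0| ≤ 1 := (norm_le_pi_norm x 0).trans hx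
    exact (abs_le.mp this).1
  have hy : ‖Function.update x 0 (-1)‖ ≤ 1 := by
    refine (pi_norm_le_iff_of_nonneg zero_le_one).mpr fun l => ?_
    by_cases hl : l = 0
    · subst hl
      rw [Function.update_self]
      simp
    · rw [Function.update_of_ne hl]
      exact (norm_le_pi_norm x l).trans hx
  have hy0 : (Function.update x 0 (-1) : Pk d) 0 = -1 := Function.update_self _ _ _
  have hf : Face (Function.update x 0 (-1) : Pk d) :=
    Or.inl ⟨0, (Fin.last_pos).ne, by rw [hy0]; norm_num⟩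
  obtain ⟨-, -, w3, w4⟩ := h.win k
  have hc : ∀ l, l ≠ 0 → x l = (Function.update x 0 (-1) : Pk d) l := fun l hl => by
    rw [Function.update_of_ne hl]
  obtain ⟨f1, f2⟩ := h.face k _ hy hf
  rw [w3 x hx h1 hx0 _ hy hy0.ge (by rw [hy0]; norm_num) hc,
    w4 x hx h1 hx0 _ hy hy0.ge (by rw [hy0]; norm_num) hc]
  exact ⟨f1, f2⟩

/-! ### The strand `k` in the coordinates of `W × ℝ` -/

theorem continuous_ckW (h : SD c ν v z j k) : Continuous (ckW c k) := by
  have h1 : ContinuousOn (ckW c k) univ :=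
    (h.cont k).comp continuous_ofW.continuousOn fun p _ => by
      rw [mem_closedBall_zero_iff]
      exact norm_ofW_le p
  rwa [continuousOn_univ] at h1

theorem ckW_toW {x : Pk d} (hx : ‖x‖ ≤ 1) : ckW c k (toW x) = c k x := by
  unfold ckW
  rw [ofW_toW hx]

theorem le_cl1 {a b : ℝ} (h : a ≤ b) (ha : a ≤ 1) : a ≤ cl1 b :=
  le_trans (le_min ha h) (le_max_right _ _)

theorem cl1_le {a b : ℝ} (h : b ≤ a) (ha : -1 ≤ a) : cl1 b ≤ a :=
  max_le ha ((min_le_right _ _).trans h)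

theorem ckW_face (h : SD c ν v z j k) (p : (Fin (d + 1 + 1) → ℝ) × ℝ)
    (hp : 1 ≤ ‖p.1‖ ∨ 1 ≤ p.2 ∨ -1 / 2 ≤ p.1 0) : ckW c k p = v k := by
  unfold ckW
  rcases hp with hp | hp | hp
  · exact (h.face k _ (norm_ofW_le p) (face_ofW (Or.inl hp))).1
  · exact (h.face k _ (norm_ofW_le p) (face_ofW (Or.inr hp))).1
  · refine (h.right _ (norm_ofW_le p) ?_).1
    rw [ofW_zero]
    exact le_cl1 hp (by norm_num)

theorem ckW_left (h : SD c ν v z j k) (p : (Fin (d + 1 + 1) → ℝ) × ℝ)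
    (hp : p.1 0 ≤ -3 / 4) : ckW c k p = v k := by
  unfold ckW
  refine (h.kleft (norm_ofW_le p) ?_).1
  rw [ofW_zero]
  exact cl1_le hp (by norm_num)

theorem ckW_ne (h : SD c ν v z j k) {i : A} (hi : i ≠ k) (p : (Fin (d + 1 + 1) → ℝ) × ℝ) :
    ckW c k p ≠ v i := by
  unfold ckW
  rcases le_total (ofW p 0) (1 / 4) with h0 | h0
  · rw [← (h.left i hi _ (norm_ofW_le p) h0).1]
    exact h.inj (norm_ofW_le p) hi.symm
  · rw [(h.right _ (norm_ofW_le p) (by linarith)).1]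
    exact h.vinj hi.symm

theorem norm_ofW_rim {y : Fin (d + 1 + 1) → ℝ} : ‖(ofW (y, (0 : ℝ)) : Pk d)‖ = 1 := by
  refine le_antisymm (norm_ofW_le _) ?_
  refine le_trans ?_ (norm_le_pi_norm (ofW (y, (0 : ℝ)) : Pk d) (Fin.last _))
  rw [ofW_last]
  have : cl1 (2 * ((y, (0 : ℝ)) : (Fin (d + 1 + 1) → ℝ) × ℝ).2 - 1) = -1 := by
    show cl1 (2 * 0 - 1) = -1
    unfold cl1
    norm_num
  rw [this]
  norm_num

theorem ckW_rim (h : SD c ν v z j k) (y : Fin (d + 1 + 1) → ℝ) :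
    inner ℝ (ckW c k (y, 0)) (frk d).h = 0 := h.perp k norm_ofW_rim

/-! ### The letter -/

theorem vj_eq : v k - (v k - v j) = v j := sub_sub_cancel _ _

theorem continuous_Glet (h : SD c ν v z j k) : Continuous (Glet c v j k) := by
  unfold Glet
  have h1 : Continuous (dirk (v k) (v k - v j) (ckW c k)) := by
    refine continuous_dirk (continuous_ckW h) fun p => ?_
    rw [vj_eq]
    exact ckW_ne h h.jk p
  exact h1.comp (continuous_win.comp (continuous_const.prodMk continuous_toW))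

theorem norm_Glet (h : SD c ν v z j k) (x : Pk d) : ‖Glet c v j k x‖ = 1 := by
  unfold Glet
  refine norm_dirk ?_
  rw [vj_eq]
  exact ckW_ne h h.jk _

theorem Glet_left (h : SD c ν v z j k) (hn : ‖v k - v j‖ = 1) {x : Pk d}
    (hx : x 0 ≤ -3 / 8) : Glet c v j k x = v k - v j :=
  dirk_of_eq hn (ckW_left h _ (win_left hx))

theorem Glet_right (h : SD c ν v z j k) (hn : ‖v k - v j‖ = 1) {x : Pk d}
    (hx : -1 / 4 ≤ x 0) : Glet c v j k x = v k - v j :=
  dirk_of_eq hn (ckW_face h _ (Or.inr (Or.inr (win_right hx))))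

theorem Glet_perp (h : SD c ν v z j k) (hn : ‖v k - v j‖ = 1)
    (hvk : inner ℝ (v k) (frk d).h = 0) (hvj : inner ℝ (v j) (frk d).h = 0) {x : Pk d}
    (hx : ‖x‖ = 1) (hx0 : x 0 ≤ 0) : inner ℝ (Glet c v j k x) (frk d).h = 0 := by
  have he : inner ℝ (v k - v j) (frk d).h = 0 := by rw [inner_sub_left, hvk, hvj, sub_zero]
  rcases face_or_rim hx with hf | hr
  · have h1 := win_face (c := 0) (x := toW x) ⟨le_rfl, zero_le_one⟩ (norm_toW_fst_le hx.le) hx0
      ((face_toW hf).elim Or.inl fun h2 => Or.inr (Or.inl h2))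
    have h2 : Glet c v j k x = v k - v j := dirk_of_eq hn (ckW_face h _ h1)
    rw [h2, he]
  · have h1 : inner ℝ (ckW c k (win 0 (toW x))) (frk d).h = 0 := by
      have h2 : win 0 (toW x) = ((win 0 (toW x)).1, 0) := by
        refine Prod.ext rfl ?_
        exact hr
      rw [h2]
      exact ckW_rim h _
    show inner ℝ (‖ckW c k (win 0 (toW x)) - (v k - (v k - v j))‖⁻¹ •
      (ckW c k (win 0 (toW x)) - (v k - (v k - v j)))) (frk d).h = 0
    rw [inner_smul_left, vj_eq, inner_sub_left, h1, hvj, sub_zero, mul_zero]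

/-! ### The normal with the letter -/

theorem rfl'_perp {e' h' : Vk d} (he : inner ℝ e' h' = 0) : rfl' e' h' = h' := by
  unfold rfl'
  rw [real_inner_comm, he, mul_zero, zero_smul, sub_zero]

theorem norm_rfl' {e' h' : Vk d} (hen : ‖e'‖ = 1) : ‖rfl' e' h'‖ = ‖h'‖ := by
  unfold rfl'
  have h1 : ‖h' - (2 * inner ℝ h' e') • e'‖ ^ 2 = ‖h'‖ ^ 2 := by
    rw [norm_sub_sq_real, inner_smul_right, norm_smul, mul_pow, Real.norm_eq_abs, sq_abs, hen]
    ring
  have h2 : 0 ≤ ‖h' - (2 * inner ℝ h' e') • e'‖ := norm_nonneg _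
  have h3 : 0 ≤ ‖h'‖ := norm_nonneg _
  nlinarith

theorem nk2_eq (h : SD c ν v z j k) (hn : ‖v k - v j‖ = 1)
    (he : inner ℝ (v k - v j) (frk d).h = 0) {x : Pk d} (hx : ‖x‖ ≤ 1) :
    nk2 c ν v j k x = ν k x + (rfl' (Glet c v j k x) (frk d).h - (frk d).h) := by
  unfold nk2
  by_cases h0 : x 0 ≤ -3 / 8
  · rw [if_pos h0, Glet_left h hn h0, rfl'_perp he, sub_self, add_zero]
  · rw [if_neg h0, (h.right x hx (by linarith)).2]
    abel

theorem continuousOn_nk2 (h : SD c ν v z j k) (hn : ‖v k - v j‖ = 1)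
    (he : inner ℝ (v k - v j) (frk d).h = 0) :
    ContinuousOn (nk2 c ν v j k) {x | ‖x‖ ≤ 1 ∧ x 0 ≤ 0} := by
  have h1 : Continuous fun x : Pk d => rfl' (Glet c v j k x) (frk d).h - (frk d).h := by
    unfold rfl'
    have := continuous_Glet h
    fun_prop
  have h2 : ContinuousOn (fun x => ν k x + (rfl' (Glet c v j k x) (frk d).h - (frk d).h))
      {x | ‖x‖ ≤ 1 ∧ x 0 ≤ 0} :=
    ((h.contn k).mono fun x hx => by simpa using hx.1).add h1.continuousOn
  exact h2.congr fun x hx => nk2_eq h hn he hx.1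

theorem norm_nk2 (h : SD c ν v z j k) {x : Pk d} (hx : ‖x‖ ≤ 1) :
    ‖nk2 c ν v j k x‖ = 1 := by
  unfold nk2
  by_cases h0 : x 0 ≤ -3 / 8
  · rw [if_pos h0]
    exact h.nnorm k hx
  · rw [if_neg h0, norm_rfl' (norm_Glet h x)]
    exact (frk d).hh

theorem nk2_perp (h : SD c ν v z j k) (hn : ‖v k - v j‖ = 1)
    (hvk : inner ℝ (v k) (frk d).h = 0) (hvj : inner ℝ (v j) (frk d).h = 0) {x : Pk d}
    (hx : ‖x‖ = 1) (hx0 : x 0 ≤ 0) : nk2 c ν v j k x = (frk d).h := by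
  unfold nk2
  by_cases h0 : x 0 ≤ -3 / 8
  · rw [if_pos h0]
    exact h.nperp k hx
  · rw [if_neg h0, rfl'_perp (Glet_perp h hn hvk hvj hx hx0)]

theorem nk2_right (h : SD c ν v z j k) (hn : ‖v k - v j‖ = 1)
    (he : inner ℝ (v k - v j) (frk d).h = 0) {x : Pk d} (hx0 : -1 / 4 ≤ x 0) :
    nk2 c ν v j k x = (frk d).h := by
  unfold nk2
  by_cases h0 : x 0 ≤ -3 / 8
  · exact absurd (hx0.trans h0) (by norm_num)
  · rw [if_neg h0, Glet_right h hn hx0, rfl'_perp he]

end Vale.Agent.P268.T.H277
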