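import Vale.Agent.P268.T.H277.Data

/-!
# P268, topological half, block B6c: families of hairpin data of the slide
-/

namespace Vale.Agent.P268.T.H277

open Set Filter Topology Metric
open Vale.Agent.P268.T.H83

variable {d : ℕ} {A : Type} [DecidableEq A]

theorem sn_apply_zero {d : ℕ} (x : Pk d) : wl 0 0 x 0 = 0 := by
  unfold wl
  exact Function.update_self _ _ _

/-- **Families of hairpin data of the slide.** -/
theorem hd_fam {c ν : A → Pk d → Vk d} {v : A → Vk d} {z j k : A} (h : SD c ν v z j k)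
    {e' : Vk d} (hen : ‖e'‖ = 1) (heh : inner ℝ e' (frk d).h = 0) {r : ℝ} (hr : 0 < r)
    {bz Pt : ℝ → Vk d} {bk : ℝ → Pk d → Vk d} {nk : Pk d → Vk d}
    (hbz : Continuous bz) (hPt : Continuous Pt)
    (hbk : ContinuousOn (fun q : ℝ × Pk d => bk q.1 q.2)
      {q | q.1 ∈ Icc (0 : ℝ) 1 ∧ ‖q.2‖ ≤ 1 ∧ q.2 0 ≤ 0})
    (hnk : ContinuousOn nk {x | ‖x‖ ≤ 1 ∧ x 0 ≤ 0})
    (nnk : ∀ x, ‖x‖ ≤ 1 → x 0 ≤ 0 → ‖nk x‖ = 1)
    (bzh : ∀ τ ∈ Icc (0 : ℝ) 1, inner ℝ (bz τ) (frk d).h = 0)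
    (Pth : ∀ τ ∈ Icc (0 : ℝ) 1, inner ℝ (Pt τ) (frk d).h = 0)
    (bkh : ∀ τ ∈ Icc (0 : ℝ) 1, ∀ x, ‖x‖ = 1 → x 0 ≤ 0 → inner ℝ (bk τ x) (frk d).h = 0)
    (nkh : ∀ x, ‖x‖ = 1 → x 0 ≤ 0 → nk x = (frk d).h)
    (tip : ∀ τ ∈ Icc (0 : ℝ) 1, ∀ x, ‖x‖ ≤ 1 → -1 / 8 ≤ x 0 → x 0 ≤ 0 →
      bk τ x = Pt τ ∧ nk x = (frk d).h)
    (d1 : ∀ τ ∈ Icc (0 : ℝ) 1, ∀ x, ‖x‖ ≤ 1 → ∀ i, i ≠ z → i ≠ k → bz τ ≠ c i x)
    (d2 : ∀ τ ∈ Icc (0 : ℝ) 1, ∀ x, ‖x‖ ≤ 1 → x 0 ≤ 0 → bk τ x ≠ Pt τ - r • e')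
    (d3 : ∀ τ ∈ Icc (0 : ℝ) 1, ∀ x, ‖x‖ ≤ 1 → x 0 ≤ 0 → bk τ x ≠ bz τ)
    (d4 : ∀ τ ∈ Icc (0 : ℝ) 1, ∀ x, ‖x‖ ≤ 1 → x 0 ≤ 0 → ∀ i, i ≠ z → i ≠ k → bk τ x ≠ v i)
    (d5 : ∀ τ ∈ Icc (0 : ℝ) 1, ∀ s ∈ Icc (0 : ℝ) 1, Pt τ - (s * r) • e' ≠ bz τ)
    (d6 : ∀ τ ∈ Icc (0 : ℝ) 1, ∀ s ∈ Icc (0 : ℝ) 1, ∀ i, i ≠ z → i ≠ k →
      Pt τ - (s * r) • e' ≠ v i) :
    HPFam (Icc (0 : ℝ) 1) 0 (frk d).h
      (fun τ => hd c ν z k e' (bz τ) (Pt τ) r (bk τ) nk) := by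
  have hu : () ∈ (univ : Set Unit) := mem_univ _
  have h1I : (1 : ℝ) ∈ Icc (0 : ℝ) 1 := right_mem_Icc.mpr zero_le_one
  have hcb : ∀ i, ContinuousOn (c i) (closedBall 0 1) := fun i =>
    (h.dat.cb i).comp (f := fun x : Pk d => ((), x)) (by fun_prop) (fun x hx => ⟨hu, hx⟩)
  have hcn : ∀ i, ContinuousOn (ν i) (closedBall 0 1) := fun i =>
    (h.dat.cn i).comp (f := fun x : Pk d => ((), x)) (by fun_prop) (fun x hx => ⟨hu, hx⟩)
  have hvz : ∀ x : Pk d, ‖x‖ ≤ 1 → x 0 ≤ 1 / 4 → ∀ i, i ≠ k → c i x = v i := fun x hx hx0 i hi =>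
    (h.left i hi x hx hx0).1
  have hseg : ∀ τ ∈ Icc (0 : ℝ) 1, ∀ μ : ℝ, |μ| ≤ r / 2 →
      ∃ s ∈ Icc (0 : ℝ) 1, Pt τ - (r / 2) • e' + μ • e' = Pt τ - (s * r) • e' := by
    intro τ hτ μ hμ
    obtain ⟨h1, h2⟩ := abs_le.mp hμ
    refine ⟨(r / 2 - μ) / r, ⟨div_nonneg (by linarith) hr.le, (div_le_one hr).mpr (by linarith)⟩,
      ?_⟩
    rw [div_mul_cancel₀ _ hr.ne']
    module
  refine
    { oth := ?_
      cc := continuousOn_const
      cr := continuousOn_const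
      hc := fun τ hτ => by
        show |(0 : ℝ)| < 1
        norm_num
      hr := fun τ hτ => by
        show 0 < r / 2
        linarith
      cbk := hbk
      cnk := hnk.comp continuousOn_snd fun q hq => hq.2
      cbt := ((hPt.comp continuous_fst).sub continuous_const).continuousOn
      cnt := continuousOn_const
      cm := ((hPt.comp continuous_fst).sub continuous_const).continuousOn
      cph := continuousOn_const
      cnw := continuousOn_const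
      nnk := fun τ hτ x hx hx0 => nnk x hx hx0
      nnt := fun τ hτ x hx hx0 => (frk d).hh
      nph := fun τ hτ x hx hx0 => hen
      nnw := fun τ hτ x hx hx0 => (frk d).hh
      hbk := fun τ hτ x hx hx0 => ⟨bkh τ hτ x hx hx0, nkh x hx hx0⟩
      hbt := fun τ hτ x hx hx0 => ⟨?_, rfl⟩
      hm := fun τ hτ x hx hx0 => ⟨?_, heh, rfl⟩
      dkt := fun τ hτ x hx hx0 => d2 τ hτ x hx hx0
      dk := fun τ hτ x hx hx0 i => ?_
      dt := fun τ hτ x hx hx0 i => ?_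
      dtip := fun τ hτ x hx hx0 i μ hμ => ?_
      rig := ⟨1 / 8, by norm_num, fun τ hτ x hx hx0 hx1 => ?_⟩ }
  · -- the other sheets
    refine ⟨fun i => ?_, fun i => ?_, fun τ _ i x hx => ?_, fun τ hτ x hx => ?_,
      fun τ hτ i x hx => ?_, fun τ _ i x hx => ?_⟩
    · show ContinuousOn (fun q : ℝ × Pk d => (if i.1 = z then fun _ => bz q.1 else c i.1) q.2)
        (Icc 0 1 ×ˢ closedBall 0 1)
      by_cases hi : i.1 = z
      · simp only [hi, if_true]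
        exact (hbz.comp continuous_fst).continuousOn
      · simp only [hi, if_false]
        exact (hcb i.1).comp continuousOn_snd fun q hq => hq.2
    · exact (hcn i.1).comp continuousOn_snd fun q hq => hq.2
    · exact h.dat.nn () hu i.1 x hx
    · have hx' : ‖x‖ ≤ 1 := by simpa using hx
      rintro ⟨i, hi⟩ ⟨i', hi'⟩ hii
      have hii' : (if i = z then fun _ => bz τ else c i) x =
        (if i' = z then fun _ => bz τ else c i') x := hii
      refine Subtype.ext ?_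
      show i = i'
      by_cases h1 : i = z
      · by_cases h2 : i' = z
        · rw [h1, h2]
        · rw [if_pos h1, if_neg h2] at hii'
          exact absurd hii' (d1 τ hτ x hx' i' h2 hi')
      · by_cases h2 : i' = z
        · rw [if_neg h1, if_pos h2] at hii'
          exact absurd hii'.symm (d1 τ hτ x hx' i h1 hi)
        · rw [if_neg h1, if_neg h2] at hii'
          exact h.dat.inj () hu x hx hii'
    · show inner ℝ ((if i.1 = z then fun _ => bz τ else c i.1) x) (frk d).h = 0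
      by_cases hi : i.1 = z
      · rw [if_pos hi]
        exact bzh τ hτ
      · rw [if_neg hi]
        exact h.dat.bh () hu i.1 x hx
    · exact h.dat.nh () hu i.1 x hx
  · show inner ℝ (Pt τ - r • e') (frk d).h = 0
    rw [inner_sub_left, inner_smul_left, Pth τ hτ, heh, mul_zero, sub_zero]
  · show inner ℝ (Pt τ - (r / 2) • e') (frk d).h = 0
    rw [inner_sub_left, inner_smul_left, Pth τ hτ, heh, mul_zero, sub_zero]
  · show bk τ x ≠ (if i.1 = z then fun _ => bz τ else c i.1) x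
    have hx0' : x 0 ≤ 0 := hx0
    by_cases hi : i.1 = z
    · rw [if_pos hi]
      exact d3 τ hτ x hx hx0
    · rw [if_neg hi, hvz x hx (by linarith) i.1 i.2]
      exact d4 τ hτ x hx hx0 i.1 hi i.2
  · show Pt τ - r • e' ≠ (if i.1 = z then fun _ => bz τ else c i.1) x
    have hx0' : x 0 ≤ 0 := hx0
    by_cases hi : i.1 = z
    · rw [if_pos hi]
      have := d5 τ hτ 1 h1I
      rwa [one_mul] at this
    · rw [if_neg hi, hvz x hx (by linarith) i.1 i.2]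
      have := d6 τ hτ 1 h1I i.1 hi i.2
      rwa [one_mul] at this
  · show (if i.1 = z then fun _ => bz τ else c i.1) x ≠ Pt τ - (r / 2) • e' + μ • e'
    have hx0' : x 0 = 0 := hx0
    obtain ⟨s, hs, hs'⟩ := hseg τ hτ μ hμ
    rw [hs']
    by_cases hi : i.1 = z
    · rw [if_pos hi]
      exact (d5 τ hτ s hs).symm
    · rw [if_neg hi, hvz x hx (by linarith) i.1 i.2]
      exact (d6 τ hτ s hs i.1 hi i.2).symm
  · have hx0' : -1 / 8 ≤ x 0 := by
      have : (0 : ℝ) - 1 / 8 ≤ x 0 := hx0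
      linarith
    obtain ⟨h1, h2⟩ := tip τ hτ x hx hx0' hx1
    refine ⟨?_, ?_, h2, ?_⟩
    · show bk τ x = Pt τ - (r / 2) • e' + (r / 2) • e'
      rw [h1]
      module
    · show Pt τ - r • e' = Pt τ - (r / 2) • e' - (r / 2) • e'
      module
    · show (frk d).h = rfl' e' (frk d).h
      unfold rfl'
      rw [real_inner_comm, heh, mul_zero, zero_smul, sub_zero]

end Vale.Agent.P268.T.H277
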