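import Vale.Agent.P268.T.H277.Facts

/-!
# P268, topological half, block B6c: the move of the tongue as a family of hairpin data
-/

set_option linter.unusedSectionVars false

namespace Vale.Agent.P268.T.H277

open Set Filter Topology Metric
open Vale.Agent.P268.T.H83 Vale.Agent.P268.H288

variable {d : ℕ} {A : Type} [DecidableEq A]
  {c ν : A → Pk d → Vk d} {v : A → Vk d} {z j k : A} {e2 : Vk d} {L r : ℝ}

/-! ### Geometry -/

theorem SG.in_e (g : SG c v z j k e2 L r) (h : SD c ν v z j k) :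
    inner ℝ e2 (v k - v j) = 0 := by
  rw [inner_sub_right, g.e2v k h.zk.symm, g.e2v j h.zj.symm, sub_zero]

theorem SG.in_e2 (g : SG c v z j k e2 L r) : inner ℝ e2 e2 = (1 : ℝ) := by
  rw [real_inner_self_eq_norm_sq, g.e2n, one_pow]

theorem SG.in_pt (g : SG c v z j k e2 L r) (h : SD c ν v z j k) (a b : ℝ) :
    inner ℝ e2 (v k + a • e2 - b • (v k - v j)) = a := by
  rw [inner_sub_right, inner_add_right, inner_smul_right, inner_smul_right, g.in_e h, g.in_e2,
    g.e2v k h.zk.symm]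
  ring

theorem SG.perp_e (g : SG c v z j k e2 L r) (h : SD c ν v z j k) :
    inner ℝ (v k - v j) (frk d).h = 0 := by
  rw [inner_sub_left, g.vh k h.zk.symm, g.vh j h.zj.symm, sub_zero]

theorem SG.perp_pt (g : SG c v z j k e2 L r) (h : SD c ν v z j k) (a b : ℝ) :
    inner ℝ (v k + a • e2 - b • (v k - v j)) (frk d).h = 0 := by
  rw [inner_sub_left, inner_add_left, inner_smul_left, inner_smul_left, g.perp_e h, g.e2h,
    g.vh k h.zk.symm]
  simp

theorem SG.e_ne (g : SG c v z j k e2 L r) : v k - v j ≠ 0 := by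
  intro h
  have := g.n1
  rw [h, norm_zero] at this
  exact zero_ne_one this

theorem SG.L8 (g : SG c v z j k e2 L r) (h : SD c ν v z j k) : 8 ≤ L := by
  have h1 := g.hL k h.zk.symm 0 (by simp)
  have h2 := norm_nonneg (c k 0 - v k)
  linarith

/-- No base point on the plane strip. -/
theorem SG.ne1 (g : SG c v z j k e2 L r) (h : SD c ν v z j k) {i : A} (hi : i ≠ z) (hik : i ≠ k)
    {a b : ℝ} (hb0 : 0 ≤ b) (hb1 : b < 1) : v k + a • e2 - b • (v k - v j) ≠ v i := by
  intro he
  have h1 : a = 0 := by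
    have := g.in_pt h a b
    rw [he, g.e2v i hi] at this
    exact this.symm
  rw [h1, zero_smul, add_zero] at he
  by_cases hij : i = j
  · subst hij
    have h2 : (1 - b) • (v k - v i) = 0 := by
      have : (1 - b) • (v k - v i) = v k - b • (v k - v i) - v i := by module
      rw [this, he, sub_self]
    rcases smul_eq_zero.mp h2 with h3 | h3
    · linarith
    · exact g.e_ne h3
  · exact g.seg i hi hij hik b ⟨hb0, hb1.le⟩ he

theorem SG.ne2 (g : SG c v z j k e2 L r) (h : SD c ν v z j k) {a b a' b' : ℝ}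
    (he : v k + a • e2 - b • (v k - v j) = v k + a' • e2 - b' • (v k - v j)) :
    a = a' ∧ b = b' := by
  have h1 : a = a' := by
    have := g.in_pt h a b
    rw [he, g.in_pt h] at this
    exact this.symm
  refine ⟨h1, ?_⟩
  subst h1
  have h2 : (b - b') • (v k - v j) = 0 := by
    have : (b - b') • (v k - v j) =
      (v k + a • e2 - b' • (v k - v j)) - (v k + a • e2 - b • (v k - v j)) := by module
    rw [this, he, sub_self]
  rcases smul_eq_zero.mp h2 with h3 | h3
  · linarith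
  · exact absurd h3 g.e_ne

/-- Sheets are below the height `L`. -/
theorem SG.below (g : SG c v z j k e2 L r) (h : SD c ν v z j k) {i : A} (hi : i ≠ z) {x : Pk d}
    (hx : ‖x‖ ≤ 1) : inner ℝ e2 (c i x) ≤ L - 8 := by
  have h1 : inner ℝ e2 (c i x) = inner ℝ e2 (c i x - v k) := by
    rw [inner_sub_right, g.e2v k h.zk.symm, sub_zero]
  rw [h1]
  have h2 := real_inner_le_norm e2 (c i x - v k)
  rw [g.e2n, one_mul] at h2
  linarith [g.hL i hi x hx]

theorem tipP_eq (o e e2 : Vk d) (L r τ s : ℝ) : o + s • (tipP o e e2 L r τ - o) =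
    o + (s * ((1 - τ) * L)) • e2 - (s * (τ * (1 - 2 * r))) • e := by
  unfold tipP
  module

theorem tipP_eq' (o e e2 : Vk d) (L r τ s : ℝ) : tipP o e e2 L r τ - s • e =
    o + ((1 - τ) * L) • e2 - (τ * (1 - 2 * r) + s) • e := by
  unfold tipP
  module

theorem mem_HH' {x : Vk d} : x ∈ HH (frk d) ↔ inner ℝ x (frk d).h = 0 := by
  rw [mem_HH, real_inner_comm]

/-- **The move of the tongue as a family of hairpin data.** -/
theorem move_fam [Fintype A] (h : SD c ν v z j k) (g : SG c v z j k e2 L r) :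
    ∃ F : ℝ → Pk d → Vk d, HPFam (Icc (0 : ℝ) 1) 0 (frk d).h (fun τ =>
        hd c ν z k (v k - v j) (v k + L • e2 - (4 * r) • (v k - v j))
          (tipP (v k) (v k - v j) e2 L r (cl (4 * τ - 1))) r (F τ) (nk2 c ν v j k)) ∧
      F 0 = (hd2 c ν v z j k e2 L r).bk ∧ F 1 = (hd3 c ν v z j k e2 L r).bk := by
  classical
  have hr := g.hr
  have hr8 := g.hr8
  have hL8 := g.L8 h
  set o : Vk d := v k with ho
  set e : Vk d := v k - v j with he
  have hoe : o - e = v j := sub_sub_cancel _ _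
  have hen : ‖e‖ = 1 := g.n1
  have hkz : k ≠ z := h.zk.symm
  have hjz : j ≠ z := h.zj.symm
  set bz : Vk d := o + L • e2 - (4 * r) • e with hbz
  have hoH : o ∈ HH (frk d) := mem_HH'.mpr (g.vh k hkz)
  have heH : e ∈ HH (frk d) := mem_HH'.mpr (g.perp_e h)
  have he2H : e2 ∈ HH (frk d) := mem_HH'.mpr g.e2h
  let v' : {i : A // i ≠ k} → Vk d := fun i => if i.1 = z then bz else v i.1
  have hv'z : ∀ i : {i : A // i ≠ k}, i.1 = z → v' i = bz := fun i hi => if_pos hi
  have hv'n : ∀ i : {i : A // i ≠ k}, i.1 ≠ z → v' i = v i.1 := fun i hi => if_neg hi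
  have hinbz : inner ℝ e2 bz = L := g.in_pt h L (4 * r)
  have hlck : ∀ p, inner ℝ e2 (ckW c k p) ≤ L - 8 := fun p => g.below h hkz (norm_ofW_le p)
  have hv'inj : Function.Injective v' := by
    intro i i' hii
    refine Subtype.ext ?_
    by_cases h1 : i.1 = z
    · by_cases h2 : i'.1 = z
      · rw [h1, h2]
      · rw [hv'z i h1, hv'n i' h2] at hii
        exact absurd hii (g.ne1 h h2 i'.2 (by positivity) (by linarith))
    · by_cases h2 : i'.1 = z
      · rw [hv'n i h1, hv'z i' h2] at hii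
        exact absurd hii.symm (g.ne1 h h1 i.2 (by positivity) (by linarith))
      · rw [hv'n i h1, hv'n i' h2] at hii
        by_contra hne
        exact h.vinj hne hii
  have hcr : ∀ p, r < ‖ckW c k p - (o - e)‖ := by
    intro p
    rw [hoe]
    unfold ckW
    rcases le_total (ofW p 0) (1 / 4) with h0 | h0
    · rw [← (h.left j h.jk _ (norm_ofW_le p) h0).1]
      have := g.gap k j hkz hjz h.jk.symm _ (norm_ofW_le p)
      linarith
    · rw [(h.right _ (norm_ofW_le p) (by linarith)).1]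
      have : ‖v k - v j‖ = 1 := g.n1
      linarith
  obtain ⟨F, hF, hF0, hF1, hFr, hFB, hFv, hFt⟩ := exists_move (n := d + 3) (m := d + 1)
    (κ := {i : A // i ≠ k}) (by omega) (by simp [Vk]) (HH (frk d))
    (by
      have h1 := finrank_HH (frk d)
      have h2 : Module.finrank ℝ (Vk d) = d + 4 := by simp [Vk]
      omega)
    (by omega) v' hv'inj
    (fun i => by
      by_cases hi : i.1 = z
      · rw [hv'z i hi]
        exact mem_HH'.mpr (g.perp_pt h L (4 * r))
      · rw [hv'n i hi]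
        exact mem_HH'.mpr (g.vh i.1 hi))
    o e e2 hoH heH he2H hen (innerSL ℝ e2) (g.in_e h) g.in_e2 r L hr (by linarith)
    (by linarith) (ckW c k) (continuous_ckW h) (fun y => mem_HH'.mpr (ckW_rim h y))
    (fun p hp => ckW_face h p hp) (fun p hp => ckW_left h p hp)
    (fun i p => by
      by_cases hi : i.1 = z
      · rw [hv'z i hi]
        intro h1
        have h2 := hlck p
        rw [h1, hinbz] at h2
        linarith
      · rw [hv'n i hi]
        exact ckW_ne h i.2 p)
    (fun p => by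
      show inner ℝ e2 (ckW c k p) < inner ℝ e2 o + L
      rw [ho, g.e2v k hkz]
      linarith [hlck p])
    hcr
    (fun i s hs τ hτ => by
      rw [tipP_eq]
      obtain ⟨hs0, hs1⟩ := hs
      obtain ⟨ht0, ht1⟩ := hτ
      have hb0 : 0 ≤ s * (τ * (1 - 2 * r)) := mul_nonneg hs0 (mul_nonneg ht0 (by linarith))
      have hb1 : s * (τ * (1 - 2 * r)) < 1 := by
        have h1 : τ * (1 - 2 * r) ≤ 1 - 2 * r := by nlinarith
        have h2 : s * (τ * (1 - 2 * r)) ≤ 1 * (1 - 2 * r) :=
          mul_le_mul hs1 h1 (mul_nonneg ht0 (by linarith)) zero_le_one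
        linarith
      by_cases hi : i.1 = z
      · rw [hv'z i hi]
        intro h1
        obtain ⟨h2, h3⟩ := g.ne2 h h1
        have h4 : s * (1 - τ) = 1 := by
          have h5 : (s * (1 - τ) - 1) * L = 0 := by linarith
          rcases mul_eq_zero.mp h5 with h6 | h6
          · linarith
          · linarith
        have h5 : τ = 0 := by nlinarith
        rw [h5] at h3
        linarith
      · rw [hv'n i hi]
        exact g.ne1 h hi i.2 hb0 hb1)
    (fun i => by
      by_cases hi : i.1 = z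
      · rw [hv'z i hi, tipP_zero]
        have h1 : o + L • e2 - bz = (4 * r) • e := by
          rw [hbz]; module
        rw [h1, norm_smul, hen, mul_one, Real.norm_eq_abs, abs_of_pos (by linarith)]
        linarith
      · rw [hv'n i hi, tipP_zero]
        have h1 : inner ℝ e2 (o + L • e2 - v i.1) = L := by
          have h2 := g.in_pt h L 0
          rw [zero_smul, sub_zero] at h2
          rw [inner_sub_right, g.e2v i.1 hi, sub_zero]
          exact h2
        have h2 := real_inner_le_norm e2 (o + L • e2 - v i.1)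
        rw [h1, g.e2n, one_mul] at h2
        linarith)
    (fun i τ hτ => by
      obtain ⟨ht0, ht1⟩ := hτ
      rw [tipP_eq']
      have hb0 : 0 ≤ τ * (1 - 2 * r) + r := add_nonneg (mul_nonneg ht0 (by linarith)) hr.le
      have hb1 : τ * (1 - 2 * r) + r < 1 := by
        have h1 : τ * (1 - 2 * r) ≤ 1 - 2 * r := by nlinarith
        linarith
      by_cases hi : i.1 = z
      · rw [hv'z i hi]
        intro h1
        obtain ⟨h2, h3⟩ := g.ne2 h h1
        have h4 : τ = 0 := by
          have h5 : τ * L = 0 := by linarith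
          rcases mul_eq_zero.mp h5 with h6 | h6
          · exact h6
          · linarith
        rw [h4] at h3
        linarith
      · rw [hv'n i hi]
        exact g.ne1 h hi i.2 hb0 hb1)
  have hmem : ∀ x : Pk d, ‖x‖ ≤ 1 → x 0 ≤ 0 → toW x ∈ halfC (d + 1) ×ˢ Icc (0 : ℝ) 1 :=
    fun x hx hx0 => toW_mem hx hx0
  have hmemp : ∀ τ ∈ Icc (0 : ℝ) 1, ∀ x : Pk d, ‖x‖ ≤ 1 → x 0 ≤ 0 →
      (τ, toW x) ∈ Icc (0 : ℝ) 1 ×ˢ (halfC (d + 1) ×ˢ Icc (0 : ℝ) 1) :=
    fun τ hτ x hx hx0 => ⟨hτ, hmem x hx hx0⟩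
  have hFz : ∀ τ ∈ Icc (0 : ℝ) 1, ∀ x : Pk d, ‖x‖ ≤ 1 → x 0 ≤ 0 → F (τ, toW x) ≠ bz := by
    intro τ hτ x hx hx0
    have := hFv _ (hmemp τ hτ x hx hx0) ⟨z, h.zk⟩
    rwa [hv'z ⟨z, h.zk⟩ rfl] at this
  obtain ⟨F', hF'⟩ : ∃ F' : ℝ → Pk d → Vk d, F' = fun τ x => if ‖x‖ ≤ 1 ∧ x 0 ≤ 0 then
      F (τ, toW x) else if τ = 0 then (hd2 c ν v z j k e2 L r).bk x else
        (hd3 c ν v z j k e2 L r).bk x := ⟨_, rfl⟩
  have hFF : ∀ τ x, ‖x‖ ≤ 1 → x 0 ≤ 0 → F' τ x = F (τ, toW x) := fun τ x hx hx0 => by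
    rw [hF']
    exact if_pos ⟨hx, hx0⟩
  refine ⟨F', ?_, ?_, ?_⟩
  · refine hd_fam h (e' := e) (bz := fun _ => bz)
      (Pt := fun τ => tipP o e e2 L r (cl (4 * τ - 1))) (bk := F')
      hen (g.perp_e h) hr continuous_const
      ((continuous_tipP o e e2 L r).comp (by fun_prop)) ?_ (continuousOn_nk2 h hen (g.perp_e h))
      (fun x hx _ => norm_nk2 h hx) (fun _ _ => g.perp_pt h L (4 * r)) (fun τ _ => ?_) ?_
      (fun x hx hx0 => nk2_perp h hen (g.vh k hkz) (g.vh j hjz) hx hx0) ?_ ?_ ?_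
      (fun τ hτ x hx hx0 => by rw [hFF τ x hx hx0]; exact hFz τ hτ x hx hx0) ?_ ?_ ?_
    · refine (hF.comp (f := fun q : ℝ × Pk d => (q.1, toW q.2))
        (s := {q | q.1 ∈ Icc (0 : ℝ) 1 ∧ ‖q.2‖ ≤ 1 ∧ q.2 0 ≤ 0})
        (continuous_fst.prodMk (continuous_toW.comp continuous_snd)).continuousOn ?_).congr ?_
      · rintro ⟨τ, x⟩ ⟨hτ, hx, hx0⟩
        exact hmemp τ hτ x hx hx0
      · rintro ⟨τ, x⟩ ⟨hτ, hx, hx0⟩
        exact hFF τ x hx hx0
    · exact mem_HH'.mp (tipP_mem hoH heH he2H L r _)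
    · intro τ hτ x hx hx0
      rw [hFF τ x hx.le hx0]
      rcases face_or_rim hx with hf | hrim
      · show inner ℝ (F (τ, toW x)) (frk d).h = 0
        rw [hFB τ hτ (toW x) ⟨hmem x hx.le hx0, by
          rcases face_toW hf with h1 | h1
          · exact Or.inl h1
          · exact Or.inr (Or.inl h1)⟩]
        exact mem_HH'.mp ((HH (frk d)).add_mem hoH ((HH (frk d)).smul_mem _
          ((HH (frk d)).sub_mem (tipP_mem hoH heH he2H L r _) hoH)))
      · show inner ℝ (F (τ, toW x)) (frk d).h = 0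
        have h1 : toW x = ((toW x).1, 0) := Prod.ext rfl hrim
        rw [h1]
        exact mem_HH'.mp (hFr τ hτ _ (hmem x hx.le hx0).1)
    · intro τ hτ x hx hx0 hx1
      refine ⟨?_, nk2_right h hen (g.perp_e h) (by linarith)⟩
      rw [hFF τ x hx hx1]
      rw [hFB τ hτ (toW x) ⟨hmem x hx hx1, Or.inr (Or.inr hx0)⟩, toW_fst_zero,
        sc_of_ge (by linarith), one_smul, add_sub_cancel]
    · intro τ _ x hx i hi _ h1
      have h2 := g.below h hi hx
      have h3 : inner ℝ e2 (c i x) = L := by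
        have h4 : bz = c i x := h1
        rw [← h4, hinbz]
      rw [h3] at h2
      linarith
    · intro τ hτ x hx hx0
      rw [hFF τ x hx hx0]
      exact hFt _ (hmemp τ hτ x hx hx0)
    · intro τ hτ x hx hx0 i hi hik
      rw [hFF τ x hx hx0]
      have := hFv _ (hmemp τ hτ x hx hx0) ⟨i, hik⟩
      rwa [hv'n ⟨i, hik⟩ hi] at this
    · intro τ _ s hs h1
      have h1' : tipP o e e2 L r (cl (4 * τ - 1)) - (s * r) • e = bz := h1
      rw [tipP_eq'] at h1'
      obtain ⟨h2, h3⟩ := g.ne2 h h1'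
      obtain ⟨ht0, ht1⟩ := cl_mem (4 * τ - 1)
      obtain ⟨hs0, hs1⟩ := hs
      have h4 : cl (4 * τ - 1) = 0 := by
        have h5 : cl (4 * τ - 1) * L = 0 := by linarith
        rcases mul_eq_zero.mp h5 with h6 | h6
        · exact h6
        · linarith
      rw [h4] at h3
      nlinarith
    · intro τ _ s hs i hi hik
      obtain ⟨ht0, ht1⟩ := cl_mem (4 * τ - 1)
      obtain ⟨hs0, hs1⟩ := hs
      show tipP o e e2 L r (cl (4 * τ - 1)) - (s * r) • e ≠ v i
      rw [tipP_eq']
      refine g.ne1 h hi hik (add_nonneg (mul_nonneg ht0 (by linarith))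
        (mul_nonneg hs0 hr.le)) ?_
      have h1 : cl (4 * τ - 1) * (1 - 2 * r) ≤ 1 - 2 * r := by nlinarith
      have h2 : s * r ≤ r := by nlinarith
      linarith
  · funext x
    by_cases hx : ‖x‖ ≤ 1 ∧ x 0 ≤ 0
    · rw [hFF 0 x hx.1 hx.2]
      show F (0, toW x) = c k x + (sc (x 0) * L) • e2 + r • (Glet c v j k x - (v k - v j))
      rw [hF0 _ (hmem x hx.1 hx.2), ckW_toW hx.1, toW_fst_zero, tipP_zero, add_sub_cancel_left,
        smul_smul]
      rfl
    · rw [hF']
      simp only [if_neg hx, if_true]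
  · funext x
    by_cases hx : ‖x‖ ≤ 1 ∧ x 0 ≤ 0
    · rw [hFF 1 x hx.1 hx.2]
      show F (1, toW x) = c k x + sc (x 0) • (v j + (2 * r) • (v k - v j) - v k)
      rw [hF1 _ (hmem x hx.1 hx.2), ckW_toW hx.1, toW_fst_zero, tipP_one]
      congr 2
      rw [he, ho]
      module
    · rw [hF']
      simp only [if_neg hx, one_ne_zero, if_false]

/-- The family of the move, with literal ends. -/
theorem move_fam' [Fintype A] (h : SD c ν v z j k) (g : SG c v z j k e2 L r) :
    ∃ D : ℝ → HData {i : A // i ≠ k} (Pk d) (Vk d), HPFam (Icc (0 : ℝ) 1) 0 (frk d).h D ∧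
      D 0 = hd2 c ν v z j k e2 L r ∧ D 1 = hd3 c ν v z j k e2 L r := by
  obtain ⟨F, hF, h0, h1⟩ := move_fam h g
  refine ⟨_, hF, ?_, ?_⟩
  · show hd c ν z k (v k - v j) (v k + L • e2 - (4 * r) • (v k - v j))
      (tipP (v k) (v k - v j) e2 L r (cl (4 * 0 - 1))) r (F 0) (nk2 c ν v j k) = _
    rw [h0, cl_of_nonpos (by norm_num), tipP_zero]
    rfl
  · show hd c ν z k (v k - v j) (v k + L • e2 - (4 * r) • (v k - v j))
      (tipP (v k) (v k - v j) e2 L r (cl (4 * 1 - 1))) r (F 1) (nk2 c ν v j k) = _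
    have e1 : tipP (v k) (v k - v j) e2 L r 1 = v j + (2 * r) • (v k - v j) := by
      rw [tipP_one]
      module
    rw [h1, cl_of_one_le (by norm_num), e1]
    rfl

end Vale.Agent.P268.T.H277
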