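import Vale.Agent.P268.T.Blocks
import Vale.Agent.P268.T.H277.Chain
import Vale.Agent.P268.T.H83.Start2
import Vale.Agent.P268.T.H839.Adir
import Vale.Agent.P268.T.R996.EndVeq2
import Vale.Agent.P268.T.A109.SplitZ
import Vale.Agent.P268.T.A109.SplitJ
import Vale.Agent.P268.T.H732.Prep

/-!
# P268, topological half, block B6: the geometric slide

`blockStep_of` : the slide from the homotopies of hairpin data and the splitting.
-/

namespace Vale.Agent.P268.T.H277

open scoped unitInterval Topology Topology.Homotopy RealInnerProductSpace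
open Set Metric Vale.Agent.P268.H288 Vale.Agent.P268.T.A109

/-- The direction of the parallel copy. -/
theorem stA_dir {d r : ℕ} {b c : (frk d).BrL (Fin (d + 2)) r} {θ : (frk d).PiL (Fin (d + 2))}
    {j k : Fin r} {ρ : ℝ} (hjk : H839.Nb j k)
    (hc : ∀ y t, ((c y).1 t).2 j = (frk d).psiMap ((θ y).1 t)) :
    ADir (H839.stN (frk d) b c k) (H839.stV d r ρ) (some j) (some k) (H839.stA θ j k) where
  cont := (H839.continuous_stA θ j k).continuousOn
  na x _ := ⟨H839.norm_stA θ j k x, H839.inner_stA hjk.ne hc x⟩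
  ah _ hx := H839.stA_sphere hjk θ hx
  al _ _ h := H839.stA_left hjk θ h
  af _ _ h := H839.stA_face hjk θ h
  aw := H839.stA_constOn hjk θ

/-- The chain of equivalences of the slide. -/
theorem chain {d : ℕ} {A : Type} [DecidableEq A] [Fintype A] {c ν : A → Pk d → Vk d}
    {v : A → Vk d} {z j k : A} {e2 : Vk d} {L s : ℝ} {a : Pk d → Vk d}
    (hph : BlockHPHom) (hri : BlockRI) (hsp : BlockSplit)
    (h : SD c ν v z j k) (g : SG c v z j k e2 L s) (ha : ADir ν v j k a)
    {ε R M ε' R' M' : ℝ} (hA : Adm ε R M (c1 c v z j k e2 L s))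
    (hA' : Adm ε' R' M' (c4 c v z j k a e2 L s)) :
    VEq (NN (frk d).h ε R M (c1 c v z j k e2 L s) ν : Ek d → ℂ)
      (NN (frk d).h ε' R' M' (c4 c v z j k a e2 L s) (n4 c ν v j k) : Ek d → ℂ) :=
  chain_of hph hsp h g (split_z h g) (agree_z h L s e2) (split_j h g ha)
    (agree_j h L s e2 a) (fun hA hA' => H732.prep hph h g hA hA')
    (fun hA hA' => H732.ri hri h g hA hA') (H732.hd0_data h g) (H732.hd1_data h g) hA hA'

/-- **The geometric slide** from the homotopies of hairpin data and the splitting. -/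
theorem blockStep_of (hph : BlockHPHom) (hri : BlockRI) (hsp : BlockSplit) : BlockStep := by
  intro d r j k hjk b b' hb hb' hcl' θ hθ
  obtain ⟨θL, rfl⟩ := hcl_surj θ
  obtain ⟨c, hc, hc1, hc2, hc3⟩ := H839.exists_literal (frk d) hθ
  have hfix : (frk d).Fixed k c := fun y t =>
    ⟨(hc1 y t k).trans (hb' y t).1, by
      rw [hc2 y t k (H839.Nb.ne hjk).symm]
      exact (hb' y t).2⟩
  have hck : ∀ i, i ≠ k → (frk d).clsU (Fin (d + 2)) i k (hcl c) = 1 := by
    intro i hi
    rw [hc]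
    exact hcl' i hi
  -- the bound
  obtain ⟨ρ, hρ⟩ := exists_bound_rel (continuous_ofBr (frk d) (GenLoop.transAt 0 b c))
  have hρ' : ∀ (i : Fin r) (q : (Fin (d + 2) → I) × I),
      ‖(PP.ofGL (GenLoop.transAt 0 b c) q).1.1 i‖ < ρ := hρ
  have hsd := H839.start_sd hb hfix hρ' (H839.Nb.ne hjk)
  obtain ⟨L₀, s, hs, hsg⟩ := H839.start_sg hb hfix hρ' hjk
  have hg := hsg (max L₀ ρ) (le_max_left _ _) s hs le_rfl
  have hdir : ADir (H839.stN (frk d) b c k) (H839.stV d r ρ) (some j) (some k)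
      (H839.stA θL j k) := stA_dir hjk hc3
  obtain ⟨ε₁, R₁, M₁, hA1⟩ := blockAdm d _ _ _ (split_z hsd hg).dat
  obtain ⟨ε₄, R₄, M₄, hA4⟩ := blockAdm d _ _ _ (split_j hsd hg hdir).dat
  -- the spheroid
  obtain ⟨x, hx, -⟩ := exists_NBr blockAdm (GenLoop.transAt 0 b b') 0
  have hmul : hcl (GenLoop.transAt 0 b b') = hcl (GenLoop.transAt 0 b c) := by
    rw [← hcl_mul, ← hcl_mul, hc]
  obtain ⟨y, hy, hyv⟩ := R996.end_veq hb hfix hck hjk H839.se2_e hg (split_j hsd hg hdir).dat
  have v1 := H83.start2_veq (j := j) blockHom blockAdm hb hfix hck (H839.Nb.ne hjk) hρ'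
    (e2 := H839.se2 d) H839.se2_norm (by rw [real_inner_comm]; exact H839.se2_h)
    (by rw [real_inner_comm]; exact H839.se2_e) (L := max L₀ ρ) (s := s) (le_max_right _ _) hs
    (x := x) (by rw [hx]; exact hmul) hA1
  have v2 := chain hph hri hsp hsd hg hdir hA1 hA4
  have v3 := hyv _ _ _ hA4
  refine ⟨y.p, ⟨x, y, hx, rfl, v1.trans (v2.trans v3)⟩, ?_⟩
  rw [hmul]
  exact hy

end Vale.Agent.P268.T.H277
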