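import Vale.Agent.P268.T.H277.Step
import Vale.Agent.P268.T.H240.Split
import Vale.Agent.P268.T.H545.HPHom

/-!
# P268, topological half, block B6: the geometric slide, plugged
-/

namespace Vale.Agent.P268.T

/-- **The geometric slide from the splitting.** -/
theorem blockStep_of_split (hsp : BlockSplit) : BlockStep :=
  H277.blockStep_of blockHPHom (H732.block_ri blockHPHom blockHPAdm) hsp

/-- **The geometric slide from the two open pieces of the splitting.** -/
theorem blockStep_of_left (hZ : H240.ZipProp) (hL : H240.LeftProp) : BlockStep :=
  blockStep_of_split (H240.blockSplit_of hZ hL)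

end Vale.Agent.P268.T
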